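import Vale.Agent.P017.H687.L4

/-!
The last step: the first three moments give a positive proportion.
-/

namespace Vale.Agent.P017.H506

open Finset Function Vale.Agent.P014.FM

namespace L5

theorem cond_co {n a : ℕ} (hn : Squarefree n) (ha : a ∣ n) (h : Cond n a) : Cond n (n / a) := by
  have h0 : n ≠ 0 := hn.ne_zero
  obtain ⟨b, rfl⟩ := ha
  have ha0 : a ≠ 0 := fun h => h0 (by simp [h])
  have hb0 : b ≠ 0 := fun h => h0 (by simp [h])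
  have e1 : a * b / a = b := Nat.mul_div_cancel_left _ (Nat.pos_of_ne_zero ha0)
  have e2 : a * b / b = a := Nat.mul_div_cancel _ (Nat.pos_of_ne_zero hb0)
  intro p hp hpn
  have h1 := h p hp hpn
  rw [e1] at h1 ⊢
  rw [e2]
  refine ⟨fun h2 => h1.2 (((hp.dvd_mul).1 hpn).resolve_right h2), fun h2 => h1.1 fun h3 => ?_⟩
  have h4 : p * p ∣ a * b := mul_dvd_mul h3 h2
  have h5 := hn p h4
  rw [Nat.isUnit_iff] at h5
  exact hp.one_lt.ne' h5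

theorem mem_RS {d a : ℕ} : a ∈ RS d ↔ (a ∣ d ∧ d ≠ 0) ∧ Cond d a := by
  classical
  rw [RS, mem_filter, Nat.mem_divisors]

/-- the number of elements is even -/
theorem even_RS {n : ℕ} (hn : Squarefree n) (h1 : n ≠ 1) : 2 ∣ (RS n).card := by
  have h0 : n ≠ 0 := hn.ne_zero
  have h : ∑ a ∈ RS n, (1 : ZMod 2) = 0 := by
    refine Finset.sum_involution (fun a _ => n / a) (fun a _ => by decide) (fun a ha _ he => ?_)
      (fun a ha => ?_) (fun a ha => ?_)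
    · obtain ⟨⟨⟨b, rfl⟩, -⟩, -⟩ := mem_RS.1 ha
      have ha0 : a ≠ 0 := fun h => h0 (by simp [h])
      rw [Nat.mul_div_cancel_left _ (Nat.pos_of_ne_zero ha0)] at he
      subst he
      have h2 := hn b dvd_rfl
      rw [Nat.isUnit_iff] at h2
      exact h1 (by rw [h2])
    · obtain ⟨⟨h2, -⟩, h3⟩ := mem_RS.1 ha
      exact mem_RS.2 ⟨⟨Nat.div_dvd_of_dvd h2, h0⟩, cond_co hn h2 h3⟩
    · obtain ⟨⟨h2, -⟩, -⟩ := mem_RS.1 ha
      exact Nat.div_div_self h2 h0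
  rw [Finset.sum_const, nsmul_eq_mul, mul_one] at h
  exact (ZMod.natCast_eq_zero_iff _ _).1 h

theorem one_mem_RS {n : ℕ} (h0 : n ≠ 0) : 1 ∈ RS n := by
  refine mem_RS.2 ⟨⟨one_dvd _, h0⟩, fun p hp _ => ⟨fun _ => ?_, fun h => ?_⟩⟩
  · rw [Nat.cast_one]; exact IsSquare.one
  · exact absurd (Nat.dvd_one.1 h) hp.one_lt.ne'

theorem two_le_RS {n : ℕ} (hn : Squarefree n) (h1 : n ≠ 1) : 2 ≤ (RS n).card :=
  Nat.le_of_dvd (card_pos.2 ⟨1, one_mem_RS hn.ne_zero⟩) (even_RS hn h1)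

theorem pointwise {M : ℝ} (hM : 4 ≤ M) {k : ℕ} (h2 : 2 ∣ k) (hk : 2 ≤ k) :
    (k : ℝ) ^ 2 - 16 ≤ (M + 4) * ((k : ℝ) - 4 + 2 * (if k = 2 then 1 else 0)) +
      (k : ℝ) ^ 3 / M := by
  have hM0 : 0 < M := by linarith
  have h3 : 0 ≤ (k : ℝ) ^ 3 / M := by positivity
  by_cases h : k = 2
  · subst h
    rw [if_pos rfl]
    norm_num
    norm_num at h3
    linarith
  · rw [if_neg h]
    have h4 : 4 ≤ k := by omega
    have h5 : (4 : ℝ) ≤ k := by exact_mod_cast h4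
    rcases le_total (k : ℝ) M with h6 | h6
    · nlinarith
    · have h7 : (k : ℝ) ^ 2 ≤ (k : ℝ) ^ 3 / M := by
        rw [le_div_iff₀ hM0]
        nlinarith [sq_nonneg (k : ℝ)]
      nlinarith

end L5

/-- L5, with the size of the family as a hypothesis -/
theorem from_moments' (hF : ∃ c : ℝ, 0 < c ∧ ∃ X₀ : ℕ, ∀ X : ℕ, X₀ ≤ X →
      c * X ≤ ((FX X).card : ℝ))
    (h1 : ∀ ε : ℝ, 0 < ε → ∃ X₀ : ℕ, ∀ X : ℕ, X₀ ≤ X →
      ∑ n ∈ FX X, ((RS n).card : ℝ) ≤ 4 * ((FX X).card : ℝ) + ε * X)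
    (h2 : ∀ ε : ℝ, 0 < ε → ∃ X₀ : ℕ, ∀ X : ℕ, X₀ ≤ X →
      20 * ((FX X).card : ℝ) - ε * X ≤ ∑ n ∈ FX X, ((RS n).card : ℝ) ^ 2)
    (C : ℝ)
    (h3 : ∀ ε : ℝ, 0 < ε → ∃ X₀ : ℕ, ∀ X : ℕ, X₀ ≤ X →
      ∑ n ∈ FX X, ((RS n).card : ℝ) ^ 3 ≤ C * ((FX X).card : ℝ) + ε * X) :
    ∃ c : ℝ, 0 < c ∧ ∃ X₀ : ℕ, ∀ X : ℕ, X₀ ≤ X →
      c * X ≤ (((FX X).filter fun n => (RS n).card = 2).card : ℝ) := by
  classical
  obtain ⟨c, hc, X₁, hX₁⟩ := hF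
  set M : ℝ := max 4 C with hM
  have hM4 : 4 ≤ M := le_max_left _ _
  have hMC : C ≤ M := le_max_right _ _
  have hM0 : 0 < M := by linarith
  set ε : ℝ := c / (M + 6) with hε
  have hε0 : 0 < ε := div_pos hc (by linarith)
  obtain ⟨X₂, hX₂⟩ := h1 ε hε0
  obtain ⟨X₃, hX₃⟩ := h2 ε hε0
  obtain ⟨X₄, hX₄⟩ := h3 ε hε0
  refine ⟨c / (M + 4), div_pos hc (by linarith), max (max X₁ X₂) (max X₃ X₄), fun X hX => ?_⟩
  have g0 := hX₁ X (((le_max_left _ _).trans (le_max_left _ _)).trans hX)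
  have g1 := hX₂ X (((le_max_right _ _).trans (le_max_left _ _)).trans hX)
  have g2 := hX₃ X (((le_max_left _ _).trans (le_max_right _ _)).trans hX)
  have g3 := hX₄ X (((le_max_right _ _).trans (le_max_right _ _)).trans hX)
  set N : ℝ := ((FX X).card : ℝ) with hN
  set A : ℝ := (((FX X).filter fun n => (RS n).card = 2).card : ℝ) with hA
  have hpt : ∑ n ∈ FX X, (((RS n).card : ℝ) ^ 2 - 16) ≤
      ∑ n ∈ FX X, ((M + 4) * (((RS n).card : ℝ) - 4 + 2 * (if (RS n).card = 2 then 1 else 0)) +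
        ((RS n).card : ℝ) ^ 3 / M) := by
    refine sum_le_sum fun n hn => ?_
    have hn' : IsF n := by
      rw [FX, mem_filter] at hn
      exact hn.2
    have hn1 : n ≠ 1 := by
      rintro rfl
      have := hn'.2.1
      omega
    exact L5.pointwise hM4 (L5.even_RS hn'.1 hn1) (L5.two_le_RS hn'.1 hn1)
  have hA' : ∑ n ∈ FX X, (if (RS n).card = 2 then (1 : ℝ) else 0) = A := by
    rw [hA, card_filter, Nat.cast_sum]
    exact sum_congr rfl fun n _ => by split_ifs <;> simp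
  rw [sum_sub_distrib, sum_const, nsmul_eq_mul, ← hN, sum_add_distrib, ← mul_sum,
    sum_add_distrib, sum_sub_distrib, sum_const, nsmul_eq_mul, ← hN, ← mul_sum, hA',
    ← sum_div] at hpt
  have hX0 : (0 : ℝ) ≤ X := Nat.cast_nonneg X
  have hN0 : 0 ≤ N := Nat.cast_nonneg _
  have hA0 : 0 ≤ A := Nat.cast_nonneg _
  have hT : (∑ n ∈ FX X, ((RS n).card : ℝ) ^ 3) / M ≤ N + ε * X := by
    rw [div_le_iff₀ hM0]
    have : C * N ≤ M * N := mul_le_mul_of_nonneg_right hMC hN0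
    have h5 : ε * X ≤ ε * X * M := by
      have := mul_nonneg hε0.le hX0
      nlinarith
    nlinarith
  have hlin : (M + 4) * (∑ n ∈ FX X, ((RS n).card : ℝ) - N * 4 + 2 * A) ≤
      (M + 4) * (ε * X + 2 * A) := mul_le_mul_of_nonneg_left (by linarith) (by linarith)
  have hεX : (M + 6) * (ε * X) = c * X := by
    rw [hε, ← mul_assoc, mul_div_cancel₀ _ (by linarith : M + 6 ≠ 0)]
  have hfin : 2 * (c * X) ≤ 2 * (M + 4) * A := by
    have e1 : (M + 4) * (ε * X + 2 * A) = (M + 6) * (ε * X) - 2 * (ε * X) + 2 * (M + 4) * A := by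
      ring
    nlinarith
  rw [div_mul_eq_mul_div, div_le_iff₀ (by linarith : 0 < M + 4)]
  linarith

/-- L5 -/
theorem from_moments
    (h1 : ∀ ε : ℝ, 0 < ε → ∃ X₀ : ℕ, ∀ X : ℕ, X₀ ≤ X →
      ∑ n ∈ FX X, ((RS n).card : ℝ) ≤ 4 * ((FX X).card : ℝ) + ε * X)
    (h2 : ∀ ε : ℝ, 0 < ε → ∃ X₀ : ℕ, ∀ X : ℕ, X₀ ≤ X →
      20 * ((FX X).card : ℝ) - ε * X ≤ ∑ n ∈ FX X, ((RS n).card : ℝ) ^ 2)
    (C : ℝ)
    (h3 : ∀ ε : ℝ, 0 < ε → ∃ X₀ : ℕ, ∀ X : ℕ, X₀ ≤ X →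
      ∑ n ∈ FX X, ((RS n).card : ℝ) ^ 3 ≤ C * ((FX X).card : ℝ) + ε * X) :
    ∃ c : ℝ, 0 < c ∧ ∃ X₀ : ℕ, ∀ X : ℕ, X₀ ≤ X →
      c * X ≤ (((FX X).filter fun n => (RS n).card = 2).card : ℝ) :=
  from_moments' FX_card h1 h2 C h3

end Vale.Agent.P017.H506
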