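import Vale.Agent.P017.H687.SqfQ
import Vale.Agent.P017.H506.Defs

/-!
The proportion of the family among all imaginary quadratic fields.
-/

namespace Vale.Agent.P017.H506

open Finset Function Vale.Agent.P014.FM

/-- the absolute value of the discriminant of `ℚ(√-d)` -/
def dsc (d : ℕ) : ℕ := if d % 4 = 3 then d else 4 * d

open Classical in
/-- all imaginary quadratic fields, by discriminant -/
noncomputable def AllX (X : ℕ) : Finset ℕ :=
  (range (X + 1)).filter (fun d => Squarefree d ∧ dsc d ≤ X)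

namespace S1

open Vale.Agent.P017.H687.Sqf

/-- admissible classes (decidable form) -/
def adm (a : ℕ) : Bool := a % 4 != 0 && a % 9 != 0 && a % 25 != 0

theorem adm_iff {a : ℕ} : adm a = true ↔ Adm a := by
  simp only [adm, Adm, Bool.and_eq_true, bne_iff_ne, ne_eq, Nat.dvd_iff_mod_eq_zero]
  tauto

/-- classes of the family -/
def AF : Finset ℕ := (range 900).filter fun a =>
  (adm a && a % 4 == 3 && a % 3 != 1 && a % 5 != 1 && a % 5 != 4) = true

/-- classes of fields with odd discriminant -/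
def A3 : Finset ℕ := (range 900).filter fun a => (adm a && a % 4 == 3) = true

/-- the other classes -/
def A1 : Finset ℕ := (range 900).filter fun a => (adm a && a % 4 != 3) = true

set_option maxRecDepth 20000 in
theorem card_AF : AF.card = 70 := by decide +kernel

set_option maxRecDepth 20000 in
theorem card_A3 : A3.card = 192 := by decide +kernel

set_option maxRecDepth 20000 in
theorem card_A1 : A1.card = 384 := by decide +kernel

theorem mem_adm {n : ℕ} (h : Squarefree n) : adm (n % 900) = true := by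
  rw [adm_iff]
  have key : ∀ p : ℕ, 1 < p → ¬ p * p ∣ n := fun p hp hd => by
    have := h p hd
    rw [Nat.isUnit_iff] at this
    omega
  have k2 := key 2 (by norm_num)
  have k3 := key 3 (by norm_num)
  have k5 := key 5 (by norm_num)
  refine ⟨fun h4 => k2 (by omega), fun h9 => k3 (by omega), fun h25 => k5 (by omega)⟩

/-- sum over a set of admissible classes -/
theorem sum_asym {A : Finset ℕ} (hA : ∀ a ∈ A, a < 900 ∧ Adm a) (X : ℕ) :
    |∑ a ∈ A, (S a X : ℝ) - A.card * (C / 900 * X)| ≤ A.card * (4 * (Nat.sqrt X : ℝ) + 1) := by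
  rw [← nsmul_eq_mul, ← nsmul_eq_mul, ← sum_const, ← sum_const, ← sum_sub_distrib]
  exact (abs_sum_le_sum_abs _ _).trans (sum_le_sum fun a ha => S_asym (hA a ha).2 (hA a ha).1 X)

theorem C_pos : 5 / 7 ≤ C := by
  have h1 := C_tail 6
  have h2 : ∑ d ∈ Icc 1 6, cf d = 1 := by
    have e : Icc 1 6 = {1, 2, 3, 4, 5, 6} := by decide
    rw [e]
    have c1 : cf 1 = 1 := by unfold cf; simp
    have c2 : cf 2 = 0 := by unfold cf; rw [if_neg (by decide)]
    have c3 : cf 3 = 0 := by unfold cf; rw [if_neg (by decide)]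
    have c4 : cf 4 = 0 := by unfold cf; rw [if_neg (by decide)]
    have c5 : cf 5 = 0 := by unfold cf; rw [if_neg (by decide)]
    have c6 : cf 6 = 0 := by unfold cf; rw [if_neg (by decide)]
    rw [sum_insert (by decide), sum_insert (by decide), sum_insert (by decide),
      sum_insert (by decide), sum_insert (by decide), sum_singleton, c1, c2, c3, c4, c5, c6]
    norm_num
  rw [h2] at h1
  have h3 := (abs_le.1 h1).1
  norm_num at h3 ⊢
  linarith

theorem C_le : C ≤ 2 := by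
  have h1 := C_tail 6
  have h2 : ∑ d ∈ Icc 1 6, cf d = 1 := by
    have e : Icc 1 6 = {1, 2, 3, 4, 5, 6} := by decide
    rw [e]
    have c1 : cf 1 = 1 := by unfold cf; simp
    have c2 : cf 2 = 0 := by unfold cf; rw [if_neg (by decide)]
    have c3 : cf 3 = 0 := by unfold cf; rw [if_neg (by decide)]
    have c4 : cf 4 = 0 := by unfold cf; rw [if_neg (by decide)]
    have c5 : cf 5 = 0 := by unfold cf; rw [if_neg (by decide)]
    have c6 : cf 6 = 0 := by unfold cf; rw [if_neg (by decide)]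
    rw [sum_insert (by decide), sum_insert (by decide), sum_insert (by decide),
      sum_insert (by decide), sum_insert (by decide), sum_singleton, c1, c2, c3, c4, c5, c6]
    norm_num
  rw [h2] at h1
  have h3 := (abs_le.1 h1).2
  norm_num at h3 ⊢
  linarith

theorem card_FX (X : ℕ) : ((FX X).card : ℝ) = ∑ a ∈ AF, (S a X : ℝ) := by
  classical
  rw [← Nat.cast_sum]
  refine congrArg (Nat.cast : ℕ → ℝ) ?_
  rw [card_eq_sum_card_fiberwise (f := fun n => n % 900) (t := AF)]
  · refine sum_congr rfl fun a ha => ?_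
    unfold S
    refine congrArg Finset.card ?_
    ext n
    simp only [FX, AF, mem_filter, mem_range, mem_Icc, IsF] at ha ⊢
    constructor
    · rintro ⟨⟨h1, h2⟩, h3⟩
      exact ⟨⟨Nat.pos_of_ne_zero h2.1.ne_zero, by omega⟩, h2.1, h3⟩
    · rintro ⟨⟨h1, h2⟩, h3, h4⟩
      simp only [Bool.and_eq_true, bne_iff_ne, beq_iff_eq, ne_eq] at ha
      obtain ⟨-, ⟨⟨⟨-, a4⟩, a3⟩, a5⟩, a5'⟩ := ha
      refine ⟨⟨by omega, h3, by omega, by omega, by omega, by omega⟩, h4⟩
  · intro n hn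
    have hn' := (mem_filter.1 (mem_coe.1 hn)).2
    have h1 := mem_adm hn'.1
    obtain ⟨hs, h4, h3, h5, h5'⟩ := hn'
    refine mem_coe.2 (mem_filter.2 ⟨mem_range.2 (Nat.mod_lt _ (by norm_num)), ?_⟩)
    simp only [Bool.and_eq_true, bne_iff_ne, beq_iff_eq, ne_eq]
    exact ⟨⟨⟨⟨h1, by omega⟩, by omega⟩, by omega⟩, by omega⟩

theorem mem_AllX {X n : ℕ} : n ∈ AllX X ↔ n < X + 1 ∧ Squarefree n ∧ dsc n ≤ X := by
  rw [AllX, mem_filter, mem_range]

theorem dsc_three {n : ℕ} (h : n % 4 = 3) : dsc n = n := if_pos h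

theorem dsc_not {n : ℕ} (h : ¬ n % 4 = 3) : dsc n = 4 * n := if_neg h

theorem card_AllX (X : ℕ) : ((AllX X).card : ℝ) =
    ∑ a ∈ A3, (S a X : ℝ) + ∑ a ∈ A1, (S a (X / 4) : ℝ) := by
  classical
  rw [← Nat.cast_sum, ← Nat.cast_sum, ← Nat.cast_add]
  refine congrArg (Nat.cast : ℕ → ℝ) ?_
  have hdis : Disjoint A3 A1 := by
    rw [disjoint_left]
    intro a h3 h1
    simp only [A3, A1, mem_filter, Bool.and_eq_true, bne_iff_ne, beq_iff_eq, ne_eq] at h3 h1
    exact h1.2.2 h3.2.2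
  rw [card_eq_sum_card_fiberwise (f := fun n => n % 900) (t := A3 ∪ A1), sum_union hdis]
  · refine congrArg₂ (· + ·) ?_ ?_
    · refine sum_congr rfl fun a ha => ?_
      unfold S
      refine congrArg Finset.card ?_
      ext n
      simp only [A3, mem_filter, mem_range, mem_Icc, Bool.and_eq_true, beq_iff_eq, mem_AllX]
        at ha ⊢
      constructor
      · rintro ⟨⟨h1, h2, h5⟩, h3⟩
        exact ⟨⟨Nat.pos_of_ne_zero h2.ne_zero, by omega⟩, h2, h3⟩
      · rintro ⟨⟨h1, h2⟩, h3, h4⟩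
        have h6 : n % 4 = 3 := by omega
        rw [dsc_three h6]
        exact ⟨⟨by omega, h3, h2⟩, h4⟩
    · refine sum_congr rfl fun a ha => ?_
      unfold S
      refine congrArg Finset.card ?_
      ext n
      simp only [A1, mem_filter, mem_range, mem_Icc, Bool.and_eq_true, bne_iff_ne, ne_eq,
        mem_AllX] at ha ⊢
      constructor
      · rintro ⟨⟨h1, h2, h5⟩, h3⟩
        have h6 : ¬ n % 4 = 3 := by omega
        rw [dsc_not h6] at h5
        exact ⟨⟨Nat.pos_of_ne_zero h2.ne_zero, by omega⟩, h2, h3⟩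
      · rintro ⟨⟨h1, h2⟩, h3, h4⟩
        have h6 : ¬ n % 4 = 3 := by omega
        rw [dsc_not h6]
        exact ⟨⟨by omega, h3, by omega⟩, h4⟩
  · intro n hn
    have hn' := (mem_filter.1 (mem_coe.1 hn)).2
    have h1 := mem_adm hn'.1
    refine mem_coe.2 (mem_union.2 ?_)
    by_cases h4 : n % 4 = 3
    · refine Or.inl (mem_filter.2 ⟨mem_range.2 (Nat.mod_lt _ (by norm_num)), ?_⟩)
      simp only [Bool.and_eq_true, beq_iff_eq]
      exact ⟨h1, by omega⟩
    · refine Or.inr (mem_filter.2 ⟨mem_range.2 (Nat.mod_lt _ (by norm_num)), ?_⟩)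
      simp only [Bool.and_eq_true, bne_iff_ne, ne_eq]
      exact ⟨h1, by omega⟩

end S1

open S1 Vale.Agent.P017.H687.Sqf in
/-- S1 -/
theorem count_ratio (ε : ℝ) (hε : 0 < ε) : ∃ X₀ : ℕ, ∀ X : ℕ, X₀ ≤ X →
    (35 / 144 - ε) * ((AllX X).card : ℝ) ≤ ((FX X).card : ℝ) := by
  have hC := C_pos
  have hC2 := C_le
  obtain ⟨s₀, hs₀⟩ := exists_nat_gt ((20000 + 20000 * ε) / ε)
  refine ⟨(s₀ + 1) * (s₀ + 1), fun X hX => ?_⟩
  set s : ℕ := Nat.sqrt X with hs
  have hs1 : s₀ + 1 ≤ s := Nat.le_sqrt.2 hX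
  have hsX : s * s ≤ X := Nat.sqrt_le X
  have hs4 : Nat.sqrt (X / 4) ≤ s := Nat.sqrt_le_sqrt (Nat.div_le_self X 4)
  have r1 : (s : ℝ) * s ≤ X := by exact_mod_cast hsX
  have r2 : (s₀ : ℝ) + 1 ≤ s := by exact_mod_cast hs1
  have r3 : ((Nat.sqrt (X / 4) : ℕ) : ℝ) ≤ s := by exact_mod_cast hs4
  have r4 : ((X / 4 : ℕ) : ℝ) ≤ X / 4 := by
    have := @Nat.cast_div_le ℝ _ _ _ X 4
    exact_mod_cast this
  have hF := (abs_le.1 (sum_asym (A := AF) (fun a ha => by
    simp only [AF, mem_filter, mem_range, Bool.and_eq_true] at ha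
    exact ⟨ha.1, adm_iff.1 ha.2.1.1.1.1⟩) X)).1
  have h3 := (abs_le.1 (sum_asym (A := A3) (fun a ha => by
    simp only [A3, mem_filter, mem_range, Bool.and_eq_true] at ha
    exact ⟨ha.1, adm_iff.1 ha.2.1⟩) X))
  have h1 := (abs_le.1 (sum_asym (A := A1) (fun a ha => by
    simp only [A1, mem_filter, mem_range, Bool.and_eq_true] at ha
    exact ⟨ha.1, adm_iff.1 ha.2.1⟩) (X / 4)))
  rw [← card_FX, card_AF] at hF
  rw [card_A3] at h3
  rw [card_A1] at h1
  rw [card_AllX]
  set T3 : ℝ := ∑ a ∈ A3, (S a X : ℝ)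
  set T1 : ℝ := ∑ a ∈ A1, (S a (X / 4) : ℝ)
  set x : ℝ := (X : ℝ) with hx
  set y : ℝ := ((X / 4 : ℕ) : ℝ) with hy
  have r5 : x / 4 - 1 ≤ y := by
    have h5 : X < (X / 4 + 1) * 4 := by omega
    have h6 : x < (y + 1) * 4 := by rw [hx, hy]; exact_mod_cast h5
    linarith
  have hx0 : 0 ≤ x := Nat.cast_nonneg X
  have hs0 : (1 : ℝ) ≤ s := by
    have : (0 : ℝ) ≤ s₀ := Nat.cast_nonneg _
    linarith
  push_cast at hF h3 h1
  -- main terms
  set c : ℝ := C / 900 with hc
  have c0 : 1 / 2000 ≤ c := by rw [hc]; linarith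
  have c1 : c ≤ 1 := by rw [hc]; linarith
  have e1 : 70 * (c * x) - 70 * (4 * s + 1) ≤ ((FX X).card : ℝ) := by linarith
  have e2 : T3 ≤ 192 * (c * x) + 192 * (4 * s + 1) := by linarith [h3.2]
  have e3 : T1 ≤ 96 * (c * x) + 384 * (4 * s + 1) := by
    have : c * y ≤ c * (x / 4) := mul_le_mul_of_nonneg_left r4 (by linarith)
    linarith [h1.2]
  have e4 : 192 * (c * x) - 192 * (4 * s + 1) ≤ T3 := by linarith [h3.1]
  have e5 : 0 ≤ T1 := Finset.sum_nonneg fun _ _ => Nat.cast_nonneg _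
  have hs2 : (20000 + 20000 * ε) / ε * s ≤ x := by
    have : (20000 + 20000 * ε) / ε ≤ s := by linarith
    calc (20000 + 20000 * ε) / ε * s ≤ s * s := mul_le_mul_of_nonneg_right this (by linarith)
      _ ≤ x := r1
  have hs3 : (20000 + 20000 * ε) * s ≤ ε * x := by
    have := mul_le_mul_of_nonneg_left hs2 hε.le
    calc (20000 + 20000 * ε) * s = ε * ((20000 + 20000 * ε) / ε * s) := by
          field_simp
      _ ≤ ε * x := this
  have hcx : ε * x * (1 / 2000) ≤ ε * (c * x) := by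
    have := mul_le_mul_of_nonneg_left c0 (mul_nonneg hε.le hx0)
    linarith
  have e6 : ε * (192 * (c * x) - 192 * (4 * s + 1)) ≤ ε * (T3 + T1) :=
    mul_le_mul_of_nonneg_left (by linarith) hε.le
  have e7 : ε * (4 * s + 1) ≤ ε * (5 * s) := mul_le_mul_of_nonneg_left (by linarith) hε.le
  have e8 : (35 / 144 - ε) * (T3 + T1) = 35 / 144 * (T3 + T1) - ε * (T3 + T1) := by ring
  rw [e8]
  nlinarith

end Vale.Agent.P017.H506
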