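import Vale.Agent.P014.H687.FM2b
import Vale.Agent.P014.H687.FM3sw
import Vale.Agent.P017.H506.Defs

/-!
Few primes congruent to `3` modulo `4` are rare.
-/

namespace Vale.Agent.P017.H506

open Finset Function Vale.Agent.P014.FM

namespace S4

open Vale.Agent.P014.H687.FM

/-- the nonprincipal character modulo `4`, as a function with real values -/
noncomputable def ps (n : ℕ) : ℝ := if n % 4 = 1 then 1 else if n % 4 = 3 then -1 else 0

theorem ps_val (n : ℕ) : ps n = 1 ∨ ps n = -1 ∨ (ps n = 0 ∧ ¬ n.Coprime 4) := by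
  unfold ps
  have h4 : n % 4 < 4 := Nat.mod_lt _ (by norm_num)
  by_cases h1 : n % 4 = 1
  · simp [h1]
  · by_cases h3 : n % 4 = 3
    · simp [h3]
    · refine Or.inr (Or.inr ⟨by simp [h1, h3], fun h => ?_⟩)
      have h2 : ¬ 2 ∣ n := fun h2 => by
        have := Nat.Coprime.coprime_dvd_left h2 h
        norm_num at this
      omega

theorem ps_mul (m n : ℕ) : ps (m * n) = ps m * ps n := by
  unfold ps
  rw [Nat.mul_mod]
  have hm : m % 4 < 4 := Nat.mod_lt _ (by norm_num)
  have hn : n % 4 < 4 := Nat.mod_lt _ (by norm_num)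
  interval_cases m % 4 <;> interval_cases n % 4 <;> norm_num

theorem npchar : NPChar 4 (fun n => ((ps n : ℝ) : ℂ)) where
  pos := by norm_num
  mul m n := by rw [ps_mul]; push_cast; rfl
  per n := by
    have : ps (n + 4) = ps n := by
      unfold ps
      rw [Nat.add_mod_right]
    rw [this]
  cop n h := by
    rcases ps_val n with h1 | h1 | h1
    · exfalso
      unfold ps at h1
      apply h
      have h4 : n % 4 < 4 := Nat.mod_lt _ (by norm_num)
      have h5 : n % 4 = 1 := by
        split_ifs at h1 with h2 h3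
        · exact h2
        · norm_num at h1
        · norm_num at h1
      have : Nat.gcd n 4 = Nat.gcd (n % 4) 4 := by rw [Nat.gcd_comm, Nat.gcd_rec]
      rw [Nat.Coprime, this, h5]
      norm_num
    · exfalso
      unfold ps at h1
      apply h
      have h5 : n % 4 = 3 := by
        split_ifs at h1 with h2 h3
        · norm_num at h1
        · exact h3
        · norm_num at h1
      have : Nat.gcd n 4 = Nat.gcd (n % 4) 4 := by rw [Nat.gcd_comm, Nat.gcd_rec]
      rw [Nat.Coprime, this, h5]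
      norm_num
    · rw [h1.1]; simp
  bd n := by
    rw [Complex.norm_real, Real.norm_eq_abs]
    rcases ps_val n with h1 | h1 | h1
    · rw [h1]; norm_num
    · rw [h1]; norm_num
    · rw [h1.1]; norm_num
  sum := by
    have : ∑ a ∈ range 4, ps a = 0 := by
      unfold ps
      simp [Finset.sum_range_succ]
    exact_mod_cast this

end S4

/-- S4 -/
theorem negl (ε : ℝ) (hε : 0 < ε) : ∃ X₀ : ℕ, ∀ X : ℕ, X₀ ≤ X →
    ∑ n ∈ FX X, (1 / 2 : ℝ) ^ (n.primeFactors.filter (fun p => p % 4 = 3)).card ≤ ε * X := by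
  classical
  obtain ⟨C, hC, h⟩ := Vale.Agent.P014.H687.FM.fm2c Vale.Agent.P014.H687.FM.sw S4.npchar
    S4.ps_val
  have hlim : Filter.Tendsto (fun x : ℝ => C * Real.log x ^ (-(1 / 4 : ℝ))) Filter.atTop
      (nhds (C * 0)) :=
    ((tendsto_rpow_neg_atTop (by norm_num : (0 : ℝ) < 1 / 4)).comp
      Real.tendsto_log_atTop).const_mul C
  rw [mul_zero] at hlim
  obtain ⟨x₀, hx₀⟩ := (hlim.eventually (gt_mem_nhds hε)).exists_forall_of_atTop
  refine ⟨max 3 ⌈x₀⌉₊, fun X hX => ?_⟩
  have hX3 : (3 : ℝ) ≤ X := by exact_mod_cast (le_max_left _ _).trans hX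
  have hXx : x₀ ≤ X := (Nat.le_ceil x₀).trans (by exact_mod_cast (le_max_right _ _).trans hX)
  set g : ℕ → ℝ := fun p => if p % 4 = 3 then 1 / 2 else 1 with hg
  have h1 := h X hX3 g (fun p => by rw [hg]; dsimp only; split_ifs <;> norm_num)
    (fun p _ => by rw [hg]; dsimp only; split_ifs <;> norm_num)
    (fun p _ hp => by
      have : p % 4 = 3 := by
        unfold S4.ps at hp
        split_ifs at hp with h2 h3
        · norm_num at hp
        · exact h3
        · norm_num at hp
      rw [hg]; dsimp only; rw [if_pos this])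
  rw [Nat.floor_natCast] at h1
  have h2 : ∑ n ∈ FX X, (1 / 2 : ℝ) ^ (n.primeFactors.filter (fun p => p % 4 = 3)).card ≤
      ∑ n ∈ Vale.Agent.P014.H687.FM.sqf X, Vale.Agent.P014.H687.FM.mf g n := by
    have e : ∀ n : ℕ, (1 / 2 : ℝ) ^ (n.primeFactors.filter (fun p => p % 4 = 3)).card =
        Vale.Agent.P014.H687.FM.mf g n := by
      intro n
      rw [Vale.Agent.P014.H687.FM.mf, ← Finset.prod_const, Finset.prod_filter]
    rw [Finset.sum_congr rfl fun n _ => e n]
    refine Finset.sum_le_sum_of_subset_of_nonneg (fun n hn => ?_) fun n _ _ => ?_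
    · rw [FX, mem_filter, mem_range] at hn
      exact Vale.Agent.P014.H687.FM.mem_sqf.2
        ⟨⟨Nat.pos_of_ne_zero hn.2.1.ne_zero, by omega⟩, hn.2.1⟩
    · exact Finset.prod_nonneg fun p _ => by rw [hg]; dsimp only; split_ifs <;> norm_num
  have h3 := hx₀ X hXx
  calc _ ≤ C * X * Real.log X ^ (-(1 / 4 : ℝ)) := h2.trans h1
    _ = (C * Real.log X ^ (-(1 / 4 : ℝ))) * X := by ring
    _ ≤ ε * X := mul_le_mul_of_nonneg_right h3.le (Nat.cast_nonneg _)

end Vale.Agent.P017.H506
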