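import Vale.Agent.P017.H687.S1

/-!
The proportion of squarefree `d` in given classes modulo `900` among all imaginary quadratic fields
`ℚ(√-d)` ordered by discriminant.
-/

namespace Vale.Agent.P017.H506

open Finset Function Vale.Agent.P014.FM

namespace S1

open Vale.Agent.P017.H687.Sqf

/-- the admissible classes modulo `900` satisfying `f` -/
def Af (f : ℕ → Bool) : Finset ℕ := (range 900).filter fun a => (adm a && f a) = true

open Classical in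
/-- squarefree numbers up to `Y` in the classes `f` -/
noncomputable def QX (f : ℕ → Bool) (Y : ℕ) : Finset ℕ :=
  (range (Y + 1)).filter fun n => Squarefree n ∧ f (n % 900) = true

theorem mem_QX {f : ℕ → Bool} {Y n : ℕ} :
    n ∈ QX f Y ↔ n ≤ Y ∧ Squarefree n ∧ f (n % 900) = true := by
  rw [QX, mem_filter, mem_range, Nat.lt_succ_iff]

theorem card_QX (f : ℕ → Bool) (Y : ℕ) : ((QX f Y).card : ℝ) = ∑ a ∈ Af f, (S a Y : ℝ) := by
  classical
  rw [← Nat.cast_sum]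
  refine congrArg (Nat.cast : ℕ → ℝ) ?_
  rw [card_eq_sum_card_fiberwise (f := fun n => n % 900) (t := Af f)]
  · refine sum_congr rfl fun a ha => ?_
    unfold S
    refine congrArg Finset.card ?_
    ext n
    have ha' : a < 900 ∧ (adm a && f a) = true := by
      simpa only [Af, mem_filter, mem_range] using ha
    rw [Bool.and_eq_true] at ha'
    simp only [QX, mem_filter, mem_range, mem_Icc]
    constructor
    · rintro ⟨⟨h1, h2, h3⟩, h4⟩
      exact ⟨⟨Nat.pos_of_ne_zero h2.ne_zero, by omega⟩, h2, h4⟩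
    · rintro ⟨⟨h1, h2⟩, h3, h4⟩
      exact ⟨⟨by omega, h3, by rw [h4]; exact ha'.2.2⟩, h4⟩
  · intro n hn
    have hn' := (mem_filter.1 (mem_coe.1 hn)).2
    have h1 := mem_adm hn'.1
    refine mem_coe.2 (mem_filter.2 ⟨mem_range.2 (Nat.mod_lt _ (by norm_num)), ?_⟩)
    rw [Bool.and_eq_true]
    exact ⟨h1, hn'.2⟩

theorem QX_ge (f : ℕ → Bool) (Y : ℕ) :
    ((Af f).card : ℝ) * (C / 900 * Y) - (Af f).card * (4 * (Nat.sqrt Y : ℝ) + 1)
      ≤ ((QX f Y).card : ℝ) := by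
  rw [card_QX]
  have := (abs_le.1 (sum_asym (A := Af f) (fun a ha => by
    simp only [Af, mem_filter, mem_range, Bool.and_eq_true] at ha
    exact ⟨ha.1, adm_iff.1 ha.2.1⟩) Y)).1
  linarith

theorem AllX_le (X : ℕ) :
    ((AllX X).card : ℝ) ≤ 288 * (C / 900 * X) + 576 * (4 * (Nat.sqrt X : ℝ) + 1) := by
  have h3 := (abs_le.1 (sum_asym (A := A3) (fun a ha => by
    simp only [A3, mem_filter, mem_range, Bool.and_eq_true] at ha
    exact ⟨ha.1, adm_iff.1 ha.2.1⟩) X)).2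
  have h1 := (abs_le.1 (sum_asym (A := A1) (fun a ha => by
    simp only [A1, mem_filter, mem_range, Bool.and_eq_true] at ha
    exact ⟨ha.1, adm_iff.1 ha.2.1⟩) (X / 4))).2
  rw [card_A3] at h3
  rw [card_A1] at h1
  rw [card_AllX]
  have r4 : ((X / 4 : ℕ) : ℝ) ≤ X / 4 := by
    have := @Nat.cast_div_le ℝ _ _ _ X 4
    exact_mod_cast this
  have r5 : (Nat.sqrt (X / 4) : ℝ) ≤ Nat.sqrt X := by
    exact_mod_cast Nat.sqrt_le_sqrt (Nat.div_le_self X 4)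
  have c0 : 0 ≤ C / 900 := by
    have := C_pos
    positivity
  have := mul_le_mul_of_nonneg_left r4 c0
  push_cast at h3 h1
  linarith

/-- abstract comparison -/
theorem compare {r c K₁ K₂ ε : ℝ} (hr : 0 ≤ r) (hc : 0 < c) (h1 : 0 ≤ K₁) (h2 : 0 ≤ K₂)
    (hε : 0 < ε) : ∃ X₀ : ℕ, ∀ X : ℕ, X₀ ≤ X → ∀ M N : ℝ, 0 ≤ M → 0 ≤ N →
      M ≤ 288 * (c * X) + K₂ * ((Nat.sqrt X : ℝ) + 1) →
      r * 288 * (c * X) - K₁ * ((Nat.sqrt X : ℝ) + 1) ≤ N → (r - ε) * M ≤ N := by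
  obtain ⟨s₀, hs₀⟩ := exists_nat_gt ((r * K₂ + K₁) * 2 / (288 * ε * c))
  refine ⟨(s₀ + 1) ^ 2, fun X hX M N hM hN hM1 hN1 => ?_⟩
  by_cases hrε : r ≤ ε
  · exact (mul_nonpos_of_nonpos_of_nonneg (by linarith) hM).trans hN
  push Not at hrε
  set s : ℝ := (Nat.sqrt X : ℝ) with hs
  have hsX : s ^ 2 ≤ X := by
    have := Nat.sqrt_le' X
    rw [hs]; exact_mod_cast this
  have hs1 : (s₀ : ℝ) + 1 ≤ s := by
    have : s₀ + 1 ≤ Nat.sqrt X := Nat.le_sqrt'.2 hX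
    rw [hs]; exact_mod_cast this
  have hs0 : (0 : ℝ) ≤ s₀ := Nat.cast_nonneg _
  have hden : 0 < 288 * ε * c := by positivity
  have e1 : (r * K₂ + K₁) * 2 ≤ s * (288 * ε * c) := by
    rw [div_lt_iff₀ hden] at hs₀
    nlinarith
  have e2 : (r * K₂ + K₁) * (s + 1) ≤ ε * (288 * (c * X)) := by
    calc (r * K₂ + K₁) * (s + 1) ≤ (r * K₂ + K₁) * (2 * s) := by
          apply mul_le_mul_of_nonneg_left (by linarith) (by positivity)
      _ = ((r * K₂ + K₁) * 2) * s := by ring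
      _ ≤ (s * (288 * ε * c)) * s := mul_le_mul_of_nonneg_right e1 (by linarith)
      _ = (288 * ε * c) * s ^ 2 := by ring
      _ ≤ (288 * ε * c) * X := mul_le_mul_of_nonneg_left hsX hden.le
      _ = ε * (288 * (c * X)) := by ring
  have e3 : (r - ε) * M ≤ (r - ε) * (288 * (c * X) + K₂ * (s + 1)) :=
    mul_le_mul_of_nonneg_left hM1 (by linarith)
  have e4 : (r - ε) * (K₂ * (s + 1)) ≤ r * (K₂ * (s + 1)) := by
    apply mul_le_mul_of_nonneg_right (by linarith)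
    have : 0 ≤ s + 1 := by linarith
    positivity
  nlinarith

/-- fields with discriminant `-d` -/
theorem ratio_full (f : ℕ → Bool) {m : ℕ} (hm : (Af f).card = m) (ε : ℝ) (hε : 0 < ε) :
    ∃ X₀ : ℕ, ∀ X : ℕ, X₀ ≤ X →
      ((m : ℝ) / 288 - ε) * ((AllX X).card : ℝ) ≤ ((QX f X).card : ℝ) := by
  have hC : 0 < C / 900 := by
    have := C_pos
    positivity
  obtain ⟨X₀, h⟩ := compare (r := (m : ℝ) / 288) (c := C / 900) (K₁ := (m : ℝ) * 4)
    (K₂ := 576 * 4) (ε := ε) (by positivity) hC (by positivity) (by norm_num) hε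
  refine ⟨X₀, fun X hX => h X hX _ _ (Nat.cast_nonneg _) (Nat.cast_nonneg _) ?_ ?_⟩
  · have := AllX_le X
    linarith
  · have := QX_ge f X
    rw [hm] at this
    have hm0 : (0 : ℝ) ≤ m := Nat.cast_nonneg _
    nlinarith

/-- fields with discriminant `-4 d` -/
theorem ratio_quarter (f : ℕ → Bool) {m : ℕ} (hm : (Af f).card = m) (ε : ℝ) (hε : 0 < ε) :
    ∃ X₀ : ℕ, ∀ X : ℕ, X₀ ≤ X →
      ((m : ℝ) / 1152 - ε) * ((AllX X).card : ℝ) ≤ ((QX f (X / 4)).card : ℝ) := by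
  have hC : 0 < C / 900 := by
    have := C_pos
    positivity
  obtain ⟨X₀, h⟩ := compare (r := (m : ℝ) / 1152) (c := C / 900)
    (K₁ := (m : ℝ) * (C / 900 + 4))
    (K₂ := 576 * 4) (ε := ε) (by positivity) hC (by positivity) (by norm_num) hε
  refine ⟨X₀, fun X hX => h X hX _ _ (Nat.cast_nonneg _) (Nat.cast_nonneg _) ?_ ?_⟩
  · have := AllX_le X
    linarith
  · have e := QX_ge f (X / 4)
    rw [hm] at e
    have hm0 : (0 : ℝ) ≤ m := Nat.cast_nonneg _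
    have r5 : (Nat.sqrt (X / 4) : ℝ) ≤ Nat.sqrt X := by
      exact_mod_cast Nat.sqrt_le_sqrt (Nat.div_le_self X 4)
    obtain ⟨y, hy⟩ : ∃ y : ℕ, y = X / 4 := ⟨_, rfl⟩
    rw [← hy] at e r5 ⊢
    have r6 : (X : ℝ) / 4 - 1 ≤ (y : ℝ) := by
      have h5 : X < (y + 1) * 4 := by omega
      have h6 : (X : ℝ) < ((y : ℝ) + 1) * 4 := by exact_mod_cast h5
      linarith
    have hs0 : (0 : ℝ) ≤ Nat.sqrt X := Nat.cast_nonneg _
    have e1 : (m : ℝ) * (C / 900 * ((X : ℝ) / 4 - 1)) ≤ m * (C / 900 * (y : ℝ)) :=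
      mul_le_mul_of_nonneg_left (mul_le_mul_of_nonneg_left r6 hC.le) hm0
    have e2 : (m : ℝ) * (4 * (Nat.sqrt y : ℝ) + 1) ≤ m * (4 * (Nat.sqrt X : ℝ) + 4) :=
      mul_le_mul_of_nonneg_left (by linarith) hm0
    have e3 : 0 ≤ (m : ℝ) * (C / 900) * (Nat.sqrt X : ℝ) :=
      mul_nonneg (mul_nonneg hm0 hC.le) hs0
    linarith

/-- 3 not inert, 5 not split -/
def fI (r a : ℕ) : Bool := a % 4 == r && a % 3 != 1 && a % 5 != 1 && a % 5 != 4

/-- 3 inert, 5 split -/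
def fII (r a : ℕ) : Bool := a % 4 == r && a % 3 == 1 && (a % 5 == 1 || a % 5 == 4)

set_option maxRecDepth 20000 in
theorem card_I1 : (Af (fI 1)).card = 70 := by decide +kernel

set_option maxRecDepth 20000 in
theorem card_I2 : (Af (fI 2)).card = 70 := by decide +kernel

set_option maxRecDepth 20000 in
theorem card_I3 : (Af (fI 3)).card = 70 := by decide +kernel

set_option maxRecDepth 20000 in
theorem card_II1 : (Af (fII 1)).card = 30 := by decide +kernel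

set_option maxRecDepth 20000 in
theorem card_II2 : (Af (fII 2)).card = 30 := by decide +kernel

set_option maxRecDepth 20000 in
theorem card_II3 : (Af (fII 3)).card = 30 := by decide +kernel

theorem mem_QI {r Y n : ℕ} : n ∈ QX (fI r) Y ↔
    n ≤ Y ∧ Squarefree n ∧ n % 4 = r ∧ n % 3 ≠ 1 ∧ n % 5 ≠ 1 ∧ n % 5 ≠ 4 := by
  rw [mem_QX]
  have e : fI r (n % 900) = true ↔ n % 4 = r ∧ n % 3 ≠ 1 ∧ n % 5 ≠ 1 ∧ n % 5 ≠ 4 := by
    simp only [fI, Bool.and_eq_true, beq_iff_eq, bne_iff_ne, ne_eq]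
    have h1 : n % 900 % 4 = n % 4 := by omega
    have h2 : n % 900 % 3 = n % 3 := by omega
    have h3 : n % 900 % 5 = n % 5 := by omega
    rw [h1, h2, h3]
    tauto
  rw [e]

theorem mem_QII {r Y n : ℕ} : n ∈ QX (fII r) Y ↔
    n ≤ Y ∧ Squarefree n ∧ n % 4 = r ∧ n % 3 = 1 ∧ (n % 5 = 1 ∨ n % 5 = 4) := by
  rw [mem_QX]
  have e : fII r (n % 900) = true ↔ n % 4 = r ∧ n % 3 = 1 ∧ (n % 5 = 1 ∨ n % 5 = 4) := by
    simp only [fII, Bool.and_eq_true, Bool.or_eq_true, beq_iff_eq]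
    have h1 : n % 900 % 4 = n % 4 := by omega
    have h2 : n % 900 % 3 = n % 3 := by omega
    have h3 : n % 900 % 5 = n % 5 := by omega
    rw [h1, h2, h3]
    tauto
  rw [e]

/-- `25/48` of all imaginary quadratic fields are in one of the six families -/
theorem ratio_six (ε : ℝ) (hε : 0 < ε) : ∃ X₀ : ℕ, ∀ X : ℕ, X₀ ≤ X →
    (35 / 144 - ε) * ((AllX X).card : ℝ) ≤ ((QX (fI 3) X).card : ℝ) ∧
    (35 / 576 - ε) * ((AllX X).card : ℝ) ≤ ((QX (fI 1) (X / 4)).card : ℝ) ∧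
    (35 / 576 - ε) * ((AllX X).card : ℝ) ≤ ((QX (fI 2) (X / 4)).card : ℝ) ∧
    (5 / 48 - ε) * ((AllX X).card : ℝ) ≤ ((QX (fII 3) X).card : ℝ) ∧
    (5 / 192 - ε) * ((AllX X).card : ℝ) ≤ ((QX (fII 1) (X / 4)).card : ℝ) ∧
    (5 / 192 - ε) * ((AllX X).card : ℝ) ≤ ((QX (fII 2) (X / 4)).card : ℝ) := by
  obtain ⟨X₁, h1⟩ := ratio_full (fI 3) card_I3 ε hε
  obtain ⟨X₂, h2⟩ := ratio_quarter (fI 1) card_I1 ε hε
  obtain ⟨X₃, h3⟩ := ratio_quarter (fI 2) card_I2 ε hε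
  obtain ⟨X₄, h4⟩ := ratio_full (fII 3) card_II3 ε hε
  obtain ⟨X₅, h5⟩ := ratio_quarter (fII 1) card_II1 ε hε
  obtain ⟨X₆, h6⟩ := ratio_quarter (fII 2) card_II2 ε hε
  refine ⟨X₁ + X₂ + X₃ + X₄ + X₅ + X₆, fun X hX => ?_⟩
  have e1 := h1 X (by omega)
  have e2 := h2 X (by omega)
  have e3 := h3 X (by omega)
  have e4 := h4 X (by omega)
  have e5 := h5 X (by omega)
  have e6 := h6 X (by omega)
  norm_num at e1 e2 e3 e4 e5 e6
  exact ⟨e1, e2, e3, e4, e5, e6⟩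

end S1

end Vale.Agent.P017.H506
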