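import Vale.Agent.P017.H506.S5

/-!
The moment argument for a general family.
-/

namespace Vale.Agent.P017.H687

open Finset

/-- if the values are powers of two, at least two, and the first three moments are those of the
expected law, then at least `2/7` of the values are equal to two -/
theorem from_moments_gen (F : ℕ → Finset ℕ) (R : ℕ → ℕ)
    (hF : ∃ c : ℝ, 0 < c ∧ ∃ X₀ : ℕ, ∀ X : ℕ, X₀ ≤ X → c * X ≤ ((F X).card : ℝ))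
    (hR : ∃ X₀ : ℕ, ∀ X : ℕ, X₀ ≤ X → ∀ n ∈ F X, ∃ j : ℕ, 1 ≤ j ∧ R n = 2 ^ j)
    (h1 : ∀ ε : ℝ, 0 < ε → ∃ X₀ : ℕ, ∀ X : ℕ, X₀ ≤ X →
      ∑ n ∈ F X, (R n : ℝ) ≤ 4 * ((F X).card : ℝ) + ε * X)
    (h2 : ∀ ε : ℝ, 0 < ε → ∃ X₀ : ℕ, ∀ X : ℕ, X₀ ≤ X →
      20 * ((F X).card : ℝ) - ε * X ≤ ∑ n ∈ F X, (R n : ℝ) ^ 2)
    (h3 : ∀ ε : ℝ, 0 < ε → ∃ X₀ : ℕ, ∀ X : ℕ, X₀ ≤ X →
      ∑ n ∈ F X, (R n : ℝ) ^ 3 ≤ 128 * ((F X).card : ℝ) + ε * X) :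
    ∀ ε : ℝ, 0 < ε → ∃ X₀ : ℕ, ∀ X : ℕ, X₀ ≤ X →
      (2 / 7 - ε) * ((F X).card : ℝ) ≤ (((F X).filter fun n => R n = 2).card : ℝ) := by
  classical
  intro ε hε
  obtain ⟨c, hc, X₁, hX₁⟩ := hF
  obtain ⟨X₅, hX₅⟩ := hR
  have hδ : 0 < ε * c / 2 := by positivity
  obtain ⟨X₂, hX₂⟩ := h1 _ hδ
  obtain ⟨X₃, hX₃⟩ := h2 _ hδ
  obtain ⟨X₄, hX₄⟩ := h3 _ hδ
  refine ⟨X₁ + X₂ + X₃ + X₄ + X₅, fun X hX => ?_⟩
  have g0 := hX₁ X (by omega)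
  have g1 := hX₂ X (by omega)
  have g2 := hX₃ X (by omega)
  have g3 := hX₄ X (by omega)
  set N : ℝ := ((F X).card : ℝ) with hN
  set A : ℝ := (((F X).filter fun n => R n = 2).card : ℝ) with hA
  have hpt : ∑ n ∈ F X, (-(1 / 8) * (R n : ℝ) ^ 3 + 7 / 2 * (R n : ℝ) ^ 2 -
      28 * (R n : ℝ) + 64) ≤ ∑ n ∈ F X, 21 * (if R n = 2 then (1 : ℝ) else 0) := by
    refine sum_le_sum fun n hn => ?_
    obtain ⟨j, hj1, hj⟩ := hX₅ X (by omega) n hn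
    have h5 := H506.S5.pointwise hj1
    rw [hj]
    refine le_trans (le_of_eq ?_) h5
    ring
  have hA' : ∑ n ∈ F X, (if R n = 2 then (1 : ℝ) else 0) = A := by
    rw [hA, card_filter, Nat.cast_sum]
    exact sum_congr rfl fun n _ => by split_ifs <;> simp
  rw [← mul_sum, hA', sum_add_distrib, sum_sub_distrib, sum_add_distrib, ← mul_sum, ← mul_sum,
    ← mul_sum, sum_const, nsmul_eq_mul, ← hN] at hpt
  have hX0 : (0 : ℝ) ≤ X := Nat.cast_nonneg X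
  have hcX : ε * c / 2 * X ≤ ε / 2 * N := by
    have := mul_le_mul_of_nonneg_left g0 (by positivity : 0 ≤ ε / 2)
    linarith
  have hN0 : 0 ≤ N := Nat.cast_nonneg _
  have hεN : 0 ≤ ε * N := by positivity
  nlinarith

end Vale.Agent.P017.H687
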