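import Vale.Agent.P014.H687.FM2b
import Vale.Agent.P014.H687.FM3sw
import Vale.Agent.P017.H506.Defs

/-!
Squarefree numbers with few prime factors in a half of the primes (given by a real character modulo
`120`) are rare.
-/

namespace Vale.Agent.P017.H506

open Finset Function Vale.Agent.P014.FM

namespace Ng

open Vale.Agent.P014.H687.FM

/-- the exponent of the sign -/
def ex (a b c d n : ℕ) : ℕ :=
  (if n % 4 = 3 then a else 0) + (if n % 8 = 3 ∨ n % 8 = 5 then b else 0) +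
    (if n % 3 = 2 then c else 0) + (if n % 5 = 2 ∨ n % 5 = 3 then d else 0)

/-- the real character modulo `120`: `χ₄ ^ a χ₈ ^ b (·/3) ^ c (·/5) ^ d` -/
def ch (a b c d n : ℕ) : ℤ :=
  if n % 2 ≠ 0 ∧ n % 3 ≠ 0 ∧ n % 5 ≠ 0 then (if ex a b c d n % 2 = 0 then 1 else -1) else 0

theorem ch_mod (a b c d n : ℕ) : ch a b c d (n % 120) = ch a b c d n := by
  have h2 : n % 120 % 2 = n % 2 := by omega
  have h3 : n % 120 % 3 = n % 3 := by omega
  have h4 : n % 120 % 4 = n % 4 := by omega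
  have h5 : n % 120 % 5 = n % 5 := by omega
  have h8 : n % 120 % 8 = n % 8 := by omega
  unfold ch ex
  rw [h2, h3, h4, h5, h8]

theorem ch_val (a b c d n : ℕ) : ch a b c d n = 1 ∨ ch a b c d n = -1 ∨
    (ch a b c d n = 0 ∧ ¬ n.Coprime 120) := by
  unfold ch
  by_cases h : n % 2 ≠ 0 ∧ n % 3 ≠ 0 ∧ n % 5 ≠ 0
  · rw [if_pos h]
    split_ifs <;> simp
  · rw [if_neg h]
    refine Or.inr (Or.inr ⟨rfl, fun hc => h ?_⟩)
    refine ⟨fun h2 => ?_, fun h3 => ?_, fun h5 => ?_⟩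
    · have := Nat.Coprime.coprime_dvd_left (Nat.dvd_of_mod_eq_zero h2) hc
      norm_num at this
    · have := Nat.Coprime.coprime_dvd_left (Nat.dvd_of_mod_eq_zero h3) hc
      norm_num at this
    · have := Nat.Coprime.coprime_dvd_left (Nat.dvd_of_mod_eq_zero h5) hc
      norm_num at this

theorem cop {n : ℕ} (h : ¬ n.Coprime 120) : ¬ (n % 2 ≠ 0 ∧ n % 3 ≠ 0 ∧ n % 5 ≠ 0) := by
  rintro ⟨h2, h3, h5⟩
  apply h
  have e : (120 : ℕ) = 2 ^ 3 * 3 * 5 := by norm_num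
  rw [e]
  refine Nat.Coprime.mul_right (Nat.Coprime.mul_right (Nat.Coprime.pow_right 3 ?_) ?_) ?_
  · exact ((Nat.Prime.coprime_iff_not_dvd Nat.prime_two).2 fun hd =>
      h2 (Nat.mod_eq_zero_of_dvd hd)).symm
  · exact ((Nat.Prime.coprime_iff_not_dvd Nat.prime_three).2 fun hd =>
      h3 (Nat.mod_eq_zero_of_dvd hd)).symm
  · exact ((Nat.Prime.coprime_iff_not_dvd Nat.prime_five).2 fun hd =>
      h5 (Nat.mod_eq_zero_of_dvd hd)).symm

/-- the sign of one component -/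
def sg (a e : ℕ) : ℤ := if (a * e) % 2 = 0 then 1 else -1

/-- exponents of the four components -/
def e4 (n : ℕ) : ℕ := if n % 4 = 3 then 1 else 0
/-- exponents of the four components -/
def e8 (n : ℕ) : ℕ := if n % 8 = 3 ∨ n % 8 = 5 then 1 else 0
/-- exponents of the four components -/
def e3 (n : ℕ) : ℕ := if n % 3 = 2 then 1 else 0
/-- exponents of the four components -/
def e5 (n : ℕ) : ℕ := if n % 5 = 2 ∨ n % 5 = 3 then 1 else 0

theorem ex_eq (a b c d n : ℕ) : ex a b c d n = a * e4 n + b * e8 n + c * e3 n + d * e5 n := by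
  unfold ex e4 e8 e3 e5
  split_ifs <;> simp

theorem e4_mul {m n : ℕ} (hm : m % 2 ≠ 0) (hn : n % 2 ≠ 0) :
    e4 (m * n) % 2 = (e4 m + e4 n) % 2 := by
  have h1 : m % 4 = 1 ∨ m % 4 = 3 := by omega
  have h2 : n % 4 = 1 ∨ n % 4 = 3 := by omega
  unfold e4
  rw [Nat.mul_mod]
  rcases h1 with h1 | h1 <;> rcases h2 with h2 | h2 <;> rw [h1, h2] <;> norm_num

theorem e8_mul {m n : ℕ} (hm : m % 2 ≠ 0) (hn : n % 2 ≠ 0) :
    e8 (m * n) % 2 = (e8 m + e8 n) % 2 := by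
  have h1 : m % 8 = 1 ∨ m % 8 = 3 ∨ m % 8 = 5 ∨ m % 8 = 7 := by omega
  have h2 : n % 8 = 1 ∨ n % 8 = 3 ∨ n % 8 = 5 ∨ n % 8 = 7 := by omega
  unfold e8
  rw [Nat.mul_mod]
  rcases h1 with h1 | h1 | h1 | h1 <;> rcases h2 with h2 | h2 | h2 | h2 <;> rw [h1, h2] <;>
    norm_num

theorem e3_mul {m n : ℕ} (hm : m % 3 ≠ 0) (hn : n % 3 ≠ 0) :
    e3 (m * n) % 2 = (e3 m + e3 n) % 2 := by
  have h1 : m % 3 = 1 ∨ m % 3 = 2 := by omega
  have h2 : n % 3 = 1 ∨ n % 3 = 2 := by omega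
  unfold e3
  rw [Nat.mul_mod]
  rcases h1 with h1 | h1 <;> rcases h2 with h2 | h2 <;> rw [h1, h2] <;> norm_num

theorem e5_mul {m n : ℕ} (hm : m % 5 ≠ 0) (hn : n % 5 ≠ 0) :
    e5 (m * n) % 2 = (e5 m + e5 n) % 2 := by
  have h1 : m % 5 = 1 ∨ m % 5 = 2 ∨ m % 5 = 3 ∨ m % 5 = 4 := by omega
  have h2 : n % 5 = 1 ∨ n % 5 = 2 ∨ n % 5 = 3 ∨ n % 5 = 4 := by omega
  unfold e5
  rw [Nat.mul_mod]
  rcases h1 with h1 | h1 | h1 | h1 <;> rcases h2 with h2 | h2 | h2 | h2 <;> rw [h1, h2] <;>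
    norm_num

theorem mod_comb {a x y z : ℕ} (h : x % 2 = (y + z) % 2) : (a * x) % 2 = (a * y + a * z) % 2 := by
  rw [Nat.mul_mod, h, ← Nat.mul_mod, mul_add]

theorem ch_mul (a b c d m n : ℕ) : ch a b c d (m * n) = ch a b c d m * ch a b c d n := by
  by_cases hm : m % 2 ≠ 0 ∧ m % 3 ≠ 0 ∧ m % 5 ≠ 0
  swap
  · have : ¬ (m * n % 2 ≠ 0 ∧ m * n % 3 ≠ 0 ∧ m * n % 5 ≠ 0) := by
      rintro ⟨h2, h3, h5⟩
      apply hm
      refine ⟨fun h => h2 ?_, fun h => h3 ?_, fun h => h5 ?_⟩ <;> rw [Nat.mul_mod, h] <;> simp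
    unfold ch
    rw [if_neg this, if_neg hm, zero_mul]
  by_cases hn : n % 2 ≠ 0 ∧ n % 3 ≠ 0 ∧ n % 5 ≠ 0
  swap
  · have : ¬ (m * n % 2 ≠ 0 ∧ m * n % 3 ≠ 0 ∧ m * n % 5 ≠ 0) := by
      rintro ⟨h2, h3, h5⟩
      apply hn
      refine ⟨fun h => h2 ?_, fun h => h3 ?_, fun h => h5 ?_⟩ <;> rw [Nat.mul_mod, h] <;> simp
    unfold ch
    rw [if_neg this, if_neg hn, mul_zero]
  have hmn : m * n % 2 ≠ 0 ∧ m * n % 3 ≠ 0 ∧ m * n % 5 ≠ 0 := by
    refine ⟨fun h => ?_, fun h => ?_, fun h => ?_⟩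
    · rcases (Nat.Prime.dvd_mul Nat.prime_two).1 (Nat.dvd_of_mod_eq_zero h) with h' | h'
      · exact hm.1 (Nat.mod_eq_zero_of_dvd h')
      · exact hn.1 (Nat.mod_eq_zero_of_dvd h')
    · rcases (Nat.Prime.dvd_mul Nat.prime_three).1 (Nat.dvd_of_mod_eq_zero h) with h' | h'
      · exact hm.2.1 (Nat.mod_eq_zero_of_dvd h')
      · exact hn.2.1 (Nat.mod_eq_zero_of_dvd h')
    · rcases (Nat.Prime.dvd_mul Nat.prime_five).1 (Nat.dvd_of_mod_eq_zero h) with h' | h'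
      · exact hm.2.2 (Nat.mod_eq_zero_of_dvd h')
      · exact hn.2.2 (Nat.mod_eq_zero_of_dvd h')
  unfold ch
  rw [if_pos hm, if_pos hn, if_pos hmn]
  have h1 := mod_comb (a := a) (e4_mul hm.1 hn.1)
  have h2 := mod_comb (a := b) (e8_mul hm.1 hn.1)
  have h3 := mod_comb (a := c) (e3_mul hm.2.1 hn.2.1)
  have h4 := mod_comb (a := d) (e5_mul hm.2.2 hn.2.2)
  have e1 := ex_eq a b c d m
  have e2 := ex_eq a b c d n
  have e3 := ex_eq a b c d (m * n)
  have key : ex a b c d (m * n) % 2 = (ex a b c d m + ex a b c d n) % 2 := by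
    rw [e1, e2, e3]
    omega
  rcases Nat.mod_two_eq_zero_or_one (ex a b c d m) with k1 | k1 <;>
  rcases Nat.mod_two_eq_zero_or_one (ex a b c d n) with k2 | k2
  · have k3 : ex a b c d (m * n) % 2 = 0 := by omega
    rw [k1, k2, k3]; norm_num
  · have k3 : ex a b c d (m * n) % 2 = 1 := by omega
    rw [k1, k2, k3]; norm_num
  · have k3 : ex a b c d (m * n) % 2 = 1 := by omega
    rw [k1, k2, k3]; norm_num
  · have k3 : ex a b c d (m * n) % 2 = 0 := by omega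
    rw [k1, k2, k3]; norm_num

theorem npchar {a b c d : ℕ} (hs : ∑ n ∈ range 120, ch a b c d n = 0) :
    NPChar 120 (fun n => (((ch a b c d n : ℤ) : ℝ) : ℂ)) where
  pos := by norm_num
  mul m n := by rw [ch_mul]; push_cast; rfl
  per n := by
    have : ch a b c d (n + 120) = ch a b c d n := by
      rw [← ch_mod, Nat.add_mod_right, ch_mod]
    rw [this]
  cop n h := by
    have : ch a b c d n = 0 := by
      unfold ch
      rw [if_neg (cop h)]
    rw [this]; simp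
  bd n := by
    rw [Complex.norm_real, Real.norm_eq_abs]
    rcases ch_val a b c d n with h1 | h1 | h1
    · rw [h1]; norm_num
    · rw [h1]; norm_num
    · rw [h1.1]; norm_num
  sum := by
    exact_mod_cast hs

/-- general form: `g ≤ 1/2` at the primes with character value `-1` -/
theorem negl_ch {a b c d : ℕ} (hs : ∑ n ∈ range 120, ch a b c d n = 0) (ε : ℝ) (hε : 0 < ε) :
    ∃ X₀ : ℕ, ∀ X : ℕ, X₀ ≤ X → ∀ g : ℕ → ℝ, (∀ p, 0 ≤ g p) → (∀ p, p.Prime → g p ≤ 1) →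
      (∀ p, p.Prime → ch a b c d p = -1 → g p ≤ 1 / 2) →
      ∑ n ∈ sqf X, ∏ p ∈ n.primeFactors, g p ≤ ε * X := by
  obtain ⟨C, hC, h⟩ := fm2c sw (npchar hs) (fun n => by
    rcases ch_val a b c d n with h1 | h1 | h1
    · left; rw [h1]; norm_num
    · right; left; rw [h1]; norm_num
    · right; right; rw [h1.1]; exact ⟨by norm_num, h1.2⟩)
  have hlim : Filter.Tendsto (fun x : ℝ => C * Real.log x ^ (-(1 / 4 : ℝ))) Filter.atTop
      (nhds (C * 0)) :=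
    ((tendsto_rpow_neg_atTop (by norm_num : (0 : ℝ) < 1 / 4)).comp
      Real.tendsto_log_atTop).const_mul C
  rw [mul_zero] at hlim
  obtain ⟨x₀, hx₀⟩ := (hlim.eventually (gt_mem_nhds hε)).exists_forall_of_atTop
  refine ⟨max 3 ⌈x₀⌉₊, fun X hX g g0 g1 g2 => ?_⟩
  have hX3 : (3 : ℝ) ≤ X := by exact_mod_cast (le_max_left _ _).trans hX
  have hXx : x₀ ≤ X := (Nat.le_ceil x₀).trans (by exact_mod_cast (le_max_right _ _).trans hX)
  have h1 := h X hX3 g g0 g1 (fun p hp hv => g2 p hp (by exact_mod_cast hv))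
  rw [Nat.floor_natCast] at h1
  have h3 := hx₀ X hXx
  calc _ ≤ C * X * Real.log X ^ (-(1 / 4 : ℝ)) := h1
    _ = (C * Real.log X ^ (-(1 / 4 : ℝ))) * X := by ring
    _ ≤ ε * X := mul_le_mul_of_nonneg_right h3.le (Nat.cast_nonneg _)

set_option maxRecDepth 20000 in
theorem sum_zero : ∀ a < 2, ∀ b < 2, ∀ c < 2, ∀ d < 2, a + b + c + d ≠ 0 →
    ∑ n ∈ range 120, ch a b c d n = 0 := by decide +kernel

end Ng

/-- numbers with few prime factors in the set where the character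
`χ₄ ^ a χ₈ ^ b (·/3) ^ c (·/5) ^ d` is `-1` are rare -/
theorem negl_gen {a b c d : ℕ} (ha : a < 2) (hb : b < 2) (hc : c < 2) (hd : d < 2)
    (h0 : a + b + c + d ≠ 0) (ε : ℝ) (hε : 0 < ε) : ∃ X₀ : ℕ, ∀ X : ℕ, X₀ ≤ X →
      ∑ n ∈ (Icc 1 X).filter Squarefree,
        (1 / 2 : ℝ) ^ (n.primeFactors.filter (fun p => Ng.ch a b c d p = -1)).card ≤ ε * X := by
  obtain ⟨X₀, h⟩ := Ng.negl_ch (Ng.sum_zero a ha b hb c hc d hd h0) ε hε
  refine ⟨X₀, fun X hX => ?_⟩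
  have h1 := h X hX (fun p => if Ng.ch a b c d p = -1 then 1 / 2 else 1)
    (fun p => by split_ifs <;> norm_num)
    (fun p _ => by split_ifs <;> norm_num)
    (fun p _ hp => by rw [if_pos hp])
  refine le_trans (le_of_eq (Finset.sum_congr rfl fun n _ => ?_)) h1
  rw [← Finset.prod_const, Finset.prod_filter]

end Vale.Agent.P017.H506
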