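import Vale.Agent.P017.H687.T5

/-!
Row T10 in the namespace of the header.
-/

namespace Vale.Agent.P017.H506

/-- T10 -/
theorem R3_pow {tp cl n : ℕ} (hn : IsG tp cl n) : ∃ j : ℕ, 1 ≤ j ∧ (R3 tp cl n).card = 2 ^ j :=
  H687.T5.R3_pow hn

end Vale.Agent.P017.H506
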