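import Vale.Agent.P017.H687.Two
import Vale.Agent.P017.H102.T12

/-!
Row T5: the power identity in the letters of `R0`; row T10: powers of two.
-/

namespace Vale.Agent.P017.H687.T5

open Finset Vale.Agent.P014.FM Vale.Agent.P017.H506 Vale.Agent.P017.H915 Vale.Agent.P017.H994
open Vale.Agent.P014.H698 (J_prod_left zmod2_cases)
open Vale.Agent.P014.H580 (J_mul_left)

/-- the parameter for even discriminants -/
def dl (tp : ℕ) : ZMod 2 := if tp = 2 then 1 else 0

theorem dd_eq' (tp n : ℕ) : dd tp n = 2 ^ (dl tp).val * n := by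
  unfold dd dl
  split_ifs
  · rfl
  · show n = 1 * n
    rw [one_mul]

theorem odd' {tp cl n : ℕ} (h : IsG tp cl n) : n % 2 = 1 := by
  have := h.2.1
  split_ifs at this <;> omega

theorem cop5 {tp n : ℕ} (h : dd tp n % 5 = 1 ∨ dd tp n % 5 = 4) : n.Coprime 5 := by
  apply Nat.Coprime.symm
  rw [Nat.Prime.coprime_iff_not_dvd Nat.prime_five]
  intro h5
  have h6 : n % 5 = 0 := Nat.mod_eq_zero_of_dvd h5
  unfold dd at h
  split_ifs at h <;> omega

theorem cop3 {tp n : ℕ} (h : dd tp n % 3 = 1) : n.Coprime 3 := by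
  apply Nat.Coprime.symm
  rw [Nat.Prime.coprime_iff_not_dvd Nat.prime_three]
  intro h5
  have h6 : n % 3 = 0 := Nat.mod_eq_zero_of_dvd h5
  unfold dd at h
  split_ifs at h <;> omega

theorem EE_eq {tp cl n : ℕ} (hn : IsG tp cl n) (k : ℕ) :
    Fintype.piFinset (fun _ : Fin k => EE (dd tp n)) =
      univ.filter fun e : Fin k → ZMod 2 => tp = 0 → e = 0 := by
  ext e
  rw [Fintype.mem_piFinset, mem_filter]
  have h1 := hn.2.1
  unfold EE
  by_cases h0 : tp = 0
  · rw [if_pos h0] at h1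
    have h2 : dd tp n % 4 = 3 := by
      unfold dd
      rw [if_neg (by omega)]
      exact h1
    rw [if_pos h2]
    constructor
    · intro h
      exact ⟨mem_univ _, fun _ => funext fun i => mem_singleton.1 (h i)⟩
    · rintro ⟨_, h⟩ i
      rw [h h0]
      exact mem_singleton.2 rfl
  · have h2 : ¬ dd tp n % 4 = 3 := by
      rw [if_neg h0] at h1
      unfold dd
      split_ifs at h1 ⊢ with h3 h4 <;> omega
    rw [if_neg h2]
    constructor
    · intro _
      exact ⟨mem_univ _, fun h => absurd h h0⟩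
    · intro _ i
      exact mem_univ _

theorem chi8_eq (m : ℕ) : H506.chi8 m = H687.chi8 m := by
  unfold H506.chi8 H687.chi8
  rw [ZMod.χ₈_nat_eq_if_mod_eight]
  have h : m % 8 < 8 := Nat.mod_lt _ (by norm_num)
  have h2 : m % 2 = m % 8 % 2 := by omega
  rw [h2]
  interval_cases m % 8 <;> norm_num

theorem slot_eq (x y z : ZMod 2) (m : ℕ) :
    slot x y z m = H687.chi8 m ^ x.val * J m (5 ^ y.val * 3 ^ z.val) := by
  unfold slot
  rw [Vale.Agent.P014.H580.J_mul_right _ _ _ (by positivity) (by positivity),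
    J_pow_val _ _ (by norm_num), J_pow_val _ _ (by norm_num), pow_val, pow_val, pow_val,
    chi8_eq, mul_assoc]

theorem wtT_eq (tp : ℕ) {k : ℕ} (θ : Tx k) (D : Ix k → ℕ) :
    wtT tp θ D = psi (es (dl tp) θ.1) (cs θ.2.1 θ.2.2) D * wtP (Pk k) D := by
  unfold wtT wtS psi
  refine congrArg (· * wtP (Pk k) D) (Finset.prod_congr rfl fun u _ => ?_)
  rw [slot_eq]
  unfold es cs E5 E3
  have h : E8 tp θ u = ∑ i, (u i).2 * (θ.1 i + dl tp * (u i).1) := by
    unfold E8 dl
    refine Finset.sum_congr rfl fun i _ => ?_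
    split_ifs
    · rw [one_mul]
    · rw [zero_mul]
  rw [h]

/-- row T5 -/
theorem card_pow3 (tp cl k : ℕ) {n : ℕ} (hn : IsG tp cl n) :
    ((R3 tp cl n).card : ℝ) ^ k = nf cl k * ∑ θ ∈ TT tp cl k, sT θ *
      ((1 / ((2 ^ k : ℕ) : ℝ)) ^ n.primeFactors.card * ∑ D ∈ tup (Ix k) n, wtT tp θ D) := by
  have h2 := odd' hn
  have hd := dd_eq' tp n
  by_cases hcl : cl = 0
  · subst hcl
    rw [H102.card_I hn, card_powI hn.1 h2 hd k, EE_eq hn k]
    unfold nf
    rw [if_pos rfl, one_mul]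
    symm
    refine Finset.sum_bij' (fun θ _ => θ.1) (fun e _ => ((e, 0, 0) : Tx k)) ?_ ?_ ?_ ?_ ?_
    · intro θ hθ
      unfold TT at hθ
      rw [mem_filter] at hθ ⊢
      exact ⟨mem_univ _, hθ.2.1⟩
    · intro e he
      rw [mem_filter] at he
      unfold TT
      rw [mem_filter]
      exact ⟨mem_univ _, he.2, fun _ => ⟨rfl, rfl⟩⟩
    · intro θ hθ
      unfold TT at hθ
      rw [mem_filter] at hθ
      obtain ⟨h3, h4⟩ := hθ.2.2 rfl
      exact Prod.ext rfl (Prod.ext h3.symm h4.symm)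
    · intro e _
      rfl
    · intro θ hθ
      unfold TT at hθ
      rw [mem_filter] at hθ
      obtain ⟨h3, h4⟩ := hθ.2.2 rfl
      have h5 : sT θ = 1 := by
        unfold sT sgn2
        rw [h4]
        simp
      rw [h5, one_mul]
      refine congrArg _ (Finset.sum_congr rfl fun D _ => ?_)
      rw [wtT_eq, h3, h4]
      have h6 : cs (0 : Fin k → ZMod 2) 0 = fun _ => 1 := funext cs_zero
      rw [h6]
  · have h3 := hn.2.2
    rw [if_neg hcl] at h3
    rw [H102.card_II hcl hn, card_powII hn.1 h2 hd (cop5 h3.2) (cop3 h3.1) k, EE_eq hn k]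
    unfold nf
    rw [if_neg hcl]
    refine congrArg _ ?_
    have h4 : TT tp cl k = (univ.filter fun e : Fin k → ZMod 2 => tp = 0 → e = 0) ×ˢ
        ((univ : Finset (Fin k → ZMod 2)) ×ˢ (univ : Finset (Fin k → ZMod 2))) := by
      ext θ
      unfold TT
      rw [mem_filter, mem_product, mem_filter, mem_product]
      constructor
      · rintro ⟨_, h5, _⟩
        exact ⟨⟨mem_univ _, h5⟩, mem_univ _, mem_univ _⟩
      · rintro ⟨⟨_, h5⟩, _⟩
        exact ⟨mem_univ _, h5, fun h => absurd h hcl⟩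
    rw [h4, Finset.sum_product]
    refine Finset.sum_congr rfl fun e _ => ?_
    rw [Finset.sum_product]
    refine Finset.sum_congr rfl fun f _ => Finset.sum_congr rfl fun z _ => ?_
    refine congrArg₂ (· * ·) rfl (congrArg _ (Finset.sum_congr rfl fun D _ => ?_))
    rw [wtT_eq]

theorem RS2_one : ∃ j : ℕ, 1 ≤ j ∧ (RS2 1).card = 2 ^ j := by
  classical
  have h : RS2 1 = {1, 10} := by
    unfold RS2
    have h1 : (five 1).divisors = {1, 2, 5, 10} := by decide +kernel
    rw [h1]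
    ext b
    rw [mem_filter]
    unfold Cond2
    have h2 : ∀ p : ℕ, p.Prime → p ≠ 2 → p ∣ 1 →
        (¬ p ∣ b → IsSquare (b : ZMod p)) ∧ (p ∣ b → IsSquare ((10 * (10 * 1 / b) : ℕ) : ZMod p)) :=
      fun p hp _ h => absurd (Nat.dvd_one.1 h) hp.one_lt.ne'
    simp only [mem_insert, mem_singleton]
    constructor
    · rintro ⟨h3, h4, _⟩
      omega
    · rintro (h3 | h3)
      · exact ⟨by omega, by omega, h2⟩
      · exact ⟨by omega, by omega, h2⟩
  refine ⟨1, le_rfl, ?_⟩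
  rw [h]
  rfl

/-- row T10 -/
theorem R3_pow {tp cl n : ℕ} (hn : IsG tp cl n) : ∃ j : ℕ, 1 ≤ j ∧ (R3 tp cl n).card = 2 ^ j := by
  have h2 := odd' hn
  have hd := dd_eq' tp n
  by_cases hcl : cl = 0
  · subst hcl
    rw [H102.card_I hn]
    refine RS1_pow hn.1 h2 hd fun h => ?_
    have h3 := hn.2.2
    rw [if_pos rfl, h] at h3
    exact h3.1 rfl
  · have h3 := hn.2.2
    rw [if_neg hcl] at h3
    rw [H102.card_II hcl hn]
    by_cases h1 : dd tp n = 1
    · rw [h1]
      exact RS2_one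
    · exact RS2_pow hn.1 h2 hd (cop5 h3.2) (cop3 h3.1) h1 h3.1

end Vale.Agent.P017.H687.T5

namespace Vale.Agent.P017.H506

open Finset Function Vale.Agent.P014.FM

/-- T5 -/
theorem card_pow3 (tp cl k : ℕ) {n : ℕ} (hn : IsG tp cl n) :
    ((R3 tp cl n).card : ℝ) ^ k = nf cl k * ∑ θ ∈ TT tp cl k, sT θ *
      ((1 / ((2 ^ k : ℕ) : ℝ)) ^ n.primeFactors.card * ∑ D ∈ tup (Ix k) n, wtT tp θ D) :=
  H687.T5.card_pow3 tp cl k hn

end Vale.Agent.P017.H506
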