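import Vale.Agent.P017.H506.Defs

/-!
The size of the family: squarefree numbers in the progression `23` modulo `60`.
-/

namespace Vale.Agent.P017.H506

open Finset Function Vale.Agent.P014.FM

namespace L4

/-- the multiples of `k ^ 2` in the progression -/
theorem card_le {k : ℕ} (hk : 0 < k) (hc : Nat.Coprime (k ^ 2) 60) (M : ℕ) :
    ((range M).filter fun m => k ^ 2 ∣ 60 * m + 23).card ≤ M / k ^ 2 + 1 := by
  have hk2 : 0 < k ^ 2 := by positivity
  rw [← card_range (M / k ^ 2 + 1)]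
  refine card_le_card_of_injOn (fun m => m / k ^ 2) (fun m hm => ?_) (fun m hm m' hm' he => ?_)
  · have hm := mem_range.1 (mem_filter.1 hm).1
    exact mem_coe.2 (mem_range.2 (Nat.lt_succ_of_le (Nat.div_le_div_right hm.le)))
  · have h1 := (mem_filter.1 hm).2
    have h2 := (mem_filter.1 hm').2
    have he' : m / k ^ 2 = m' / k ^ 2 := he
    have h3 : 60 * m + 23 ≡ 60 * m' + 23 [MOD k ^ 2] :=
      ((Nat.modEq_zero_iff_dvd).2 h1).trans ((Nat.modEq_zero_iff_dvd).2 h2).symm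
    have h4 : 60 * m ≡ 60 * m' [MOD k ^ 2] := Nat.ModEq.add_right_cancel' 23 h3
    have h5 : m ≡ m' [MOD k ^ 2] := Nat.ModEq.cancel_left_of_coprime hc h4
    have h6 : m % k ^ 2 = m' % k ^ 2 := h5
    have h7 := Nat.div_add_mod m (k ^ 2)
    have h8 := Nat.div_add_mod m' (k ^ 2)
    rw [← h7, ← h8, he', h6]

theorem isF {m : ℕ} (h : Squarefree (60 * m + 23)) : IsF (60 * m + 23) :=
  ⟨h, by omega, by omega, by omega, by omega⟩

/-- members of the progression which are not squarefree -/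
theorem bad {m M : ℕ} (hm : m < M) (h : ¬ Squarefree (60 * m + 23)) :
    ∃ k ∈ Ioc 6 (Nat.sqrt (60 * M)), Nat.Coprime (k ^ 2) 60 ∧ k ^ 2 ∣ 60 * m + 23 := by
  rw [Nat.squarefree_iff_prime_squarefree] at h
  push Not at h
  obtain ⟨p, hp, hd⟩ := h
  have hpd : p ∣ 60 * m + 23 := (dvd_mul_right p p).trans hd
  have hc : Nat.Coprime p 60 := by
    rw [hp.coprime_iff_not_dvd]
    intro h1
    have h2 : p ∣ 23 := (Nat.dvd_add_right (h1.mul_right m)).1 hpd
    have h3 := (Nat.prime_dvd_prime_iff_eq hp (by norm_num)).1 h2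
    subst h3
    omega
  have h6 : 6 < p := by
    by_contra h7
    push Not at h7
    interval_cases p <;> revert hc hp <;> decide
  refine ⟨p, mem_Ioc.2 ⟨h6, Nat.le_sqrt.2 ?_⟩, Nat.Coprime.pow_left 2 hc, by rwa [pow_two]⟩
  exact (Nat.le_of_dvd (by omega) hd).trans (by omega)

end L4

/-- L4 -/
theorem FX_card : ∃ c : ℝ, 0 < c ∧ ∃ X₀ : ℕ, ∀ X : ℕ, X₀ ≤ X → c * X ≤ ((FX X).card : ℝ) := by
  classical
  refine ⟨1 / 120, by norm_num, 129600, fun X hX => ?_⟩
  set M : ℕ := X / 60 with hM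
  have hM1 : 2160 ≤ M := by omega
  have hMX : 60 * M ≤ X := by omega
  have hXM : X < 60 * M + 60 := by omega
  set K : ℕ := Nat.sqrt (60 * M) with hK
  have hK2 : K * K ≤ 60 * M := Nat.sqrt_le _
  set S := (range M).filter fun m => Squarefree (60 * m + 23) with hS
  set T := (range M).filter fun m => ¬ Squarefree (60 * m + 23) with hT
  have hcard : S.card + T.card = M := by
    rw [hS, hT, card_filter_add_card_filter_not, card_range]
  have hSF : S.card ≤ (FX X).card := by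
    refine card_le_card_of_injOn (fun m => 60 * m + 23) (fun m hm => ?_)
      (fun m _ m' _ he => by
        have he' : 60 * m + 23 = 60 * m' + 23 := he
        omega)
    have h1 := mem_filter.1 hm
    have h2 := mem_range.1 h1.1
    have h3 : 60 * m + 23 < X + 1 := by omega
    refine mem_coe.2 ?_
    rw [FX, mem_filter]
    exact ⟨mem_range.2 h3, L4.isF h1.2⟩
  have hTsub : T ⊆ (Ioc 6 K).biUnion fun k => if Nat.Coprime (k ^ 2) 60 then
      (range M).filter fun m => k ^ 2 ∣ 60 * m + 23 else ∅ := by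
    intro m hm
    have h1 := mem_filter.1 hm
    obtain ⟨k, hk, hc, hd⟩ := L4.bad (mem_range.1 h1.1) h1.2
    refine mem_biUnion.2 ⟨k, hk, ?_⟩
    rw [if_pos hc]
    exact mem_filter.2 ⟨h1.1, hd⟩
  have hTc : (T.card : ℝ) ≤ ∑ k ∈ Ioc 6 K, ((M : ℝ) * ((k : ℝ) ^ 2)⁻¹ + 1) := by
    have h1 : T.card ≤ ∑ k ∈ Ioc 6 K, (M / k ^ 2 + 1) := by
      refine (card_le_card hTsub).trans (card_biUnion_le.trans (sum_le_sum fun k hk => ?_))
      split_ifs with hc
      · exact L4.card_le (by have := (mem_Ioc.1 hk).1; omega) hc M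
      · simp
    refine (Nat.cast_le.2 h1).trans ?_
    rw [Nat.cast_sum]
    refine sum_le_sum fun k hk => ?_
    rw [Nat.cast_add, Nat.cast_one, ← div_eq_mul_inv]
    have := @Nat.cast_div_le ℝ _ _ _ M (k ^ 2)
    rw [Nat.cast_pow] at this
    linarith
  have hKpos : 6 ≤ K := by
    rw [hK, Nat.le_sqrt]
    omega
  have hsum : ∑ k ∈ Ioc 6 K, ((M : ℝ) * ((k : ℝ) ^ 2)⁻¹ + 1) ≤ M * (1 / 6) + K := by
    rw [sum_add_distrib, ← mul_sum, sum_const, nsmul_eq_mul, mul_one, Nat.card_Ioc]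
    have h1 := sum_Ioc_inv_sq_le_sub (α := ℝ) (k := 6) (n := K) (by norm_num) hKpos
    have h2 : (0 : ℝ) ≤ ((K : ℝ))⁻¹ := by positivity
    have h3 : ∑ k ∈ Ioc 6 K, ((k : ℝ) ^ 2)⁻¹ ≤ 1 / 6 := by
      refine h1.trans ?_
      norm_num
    have h4 : ((K - 6 : ℕ) : ℝ) ≤ K := Nat.cast_le.2 (Nat.sub_le _ _)
    exact add_le_add (mul_le_mul_of_nonneg_left h3 (Nat.cast_nonneg _)) h4
  have hKM : (K : ℝ) ≤ M / 6 := by
    have h1 : (K : ℝ) * K ≤ 60 * M := by exact_mod_cast hK2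
    have h2 : (2160 : ℝ) ≤ M := by exact_mod_cast hM1
    by_contra h3
    push Not at h3
    nlinarith
  have e1 : (S.card : ℝ) + T.card = M := by exact_mod_cast hcard
  have e2 : (X : ℝ) ≤ 60 * M + 60 := by exact_mod_cast hXM.le
  have e3 : (S.card : ℝ) ≤ (FX X).card := Nat.cast_le.2 hSF
  have e4 : (2160 : ℝ) ≤ M := by exact_mod_cast hM1
  linarith

end Vale.Agent.P017.H506
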