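import Vale.Agent.P017.H687.Pow2

/-!
The power identity for all six families, final form.
-/

namespace Vale.Agent.P017.H687

open Finset Vale.Agent.P014.FM Vale.Agent.P017.H506 Vale.Agent.P017.H915 Vale.Agent.P017.H994
open Vale.Agent.P014.H698 (J_prod_left zmod2_cases)
open Vale.Agent.P014.H580 (J_mul_left)

theorem J_two_three : J 2 3 = -1 := by
  unfold Vale.Agent.P014.H580.J
  rw [show jacobiSym ((2 : ℕ) : ℤ) 3 = -1 by decide +kernel]
  norm_num

theorem J_five_three : J 5 3 = -1 := by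
  unfold Vale.Agent.P014.H580.J
  rw [show jacobiSym ((5 : ℕ) : ℤ) 3 = -1 by decide +kernel]
  norm_num

theorem J_three_one {b : ℕ} (h : b % 3 = 1) : J b 3 = 1 := by
  unfold Vale.Agent.P014.H580.J
  rw [jacobiSym.mod_left, show ((b : ℤ) % ((3 : ℕ) : ℤ)) = 1 by push_cast; omega,
    jacobiSym.one_left]
  norm_num

theorem J_three_two {b : ℕ} (h : b % 3 = 2) : J b 3 = -1 := by
  unfold Vale.Agent.P014.H580.J
  rw [jacobiSym.mod_left, show ((b : ℤ) % ((3 : ℕ) : ℤ)) = ((2 : ℕ) : ℤ) by push_cast; omega,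
    show jacobiSym ((2 : ℕ) : ℤ) 3 = -1 by decide +kernel]
  norm_num

section

variable {d n : ℕ} {δ : ZMod 2} (hn : Squarefree n) (h2 : n % 2 = 1) (hd : d = 2 ^ δ.val * n)

theorem kap_one (x : n.primeFactors → ZMod 2) : ∏ p, kap 1 (x p) p = J (Dc x 1) 3 := by
  unfold Dc kap
  rw [J_prod_left, Finset.prod_filter]
  exact Finset.prod_congr rfl fun p _ => by rw [one_mul]

theorem kap_zero (x : n.primeFactors → ZMod 2) : ∏ p, kap 0 (x p) p = 1 := by
  unfold kap
  exact Finset.prod_eq_one fun p _ => by rw [zero_mul, if_neg (by decide)]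

/-- the sign of the parameters -/
noncomputable def sgz (z y : ZMod 2) : ℝ := if z * y = 1 then -1 else 1

theorem J_bb (e f : ZMod 2) (x : n.primeFactors → ZMod 2) :
    J (bb e f x) 3 = sgz 1 (e + f) * ∏ p, kap 1 (x p) p := by
  rw [kap_one]
  unfold bb sgz
  rw [J_mul_left, J_mul_left, J_pow_left, J_pow_left, J_two_three, J_five_three, one_mul]
  refine congrArg (· * J (Dc x 1) 3) ?_
  rcases zmod2_cases e with h | h <;> rcases zmod2_cases f with h' | h' <;> rw [h, h']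
  all_goals
    try rw [show (0 : ZMod 2).val = 0 by rfl]
    try rw [show (1 : ZMod 2).val = 1 by rfl]
  · simp
  · simp
  · simp
  · rw [show (1 : ZMod 2) + 1 = 0 by decide, if_neg (by decide)]
    norm_num

include hn in
theorem ind_bb (h3 : n.Coprime 3) (e f : ZMod 2) (x : n.primeFactors → ZMod 2) :
    (if bb e f x % 3 = 1 then (1 : ℝ) else 0) =
      1 / 2 * ∑ z : ZMod 2, sgz z (e + f) * ∏ p, kap z (x p) p := by
  have h4 : ∀ g : ZMod 2 → ℝ, ∑ a : ZMod 2, g a = g 0 + g 1 := fun g => Fin.sum_univ_two g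
  rw [h4, ← J_bb, kap_zero]
  have h0 : sgz 0 (e + f) = 1 := by
    unfold sgz
    rw [zero_mul, if_neg (by decide)]
  rw [h0]
  have hnd : ¬ 3 ∣ bb e f x := fun h => by
    unfold bb at h
    rcases (Nat.Prime.dvd_mul Nat.prime_three).1 h with h | h
    · rcases (Nat.Prime.dvd_mul Nat.prime_three).1 h with h | h
      · have := Nat.prime_three.dvd_of_dvd_pow h
        norm_num at this
      · have := Nat.prime_three.dvd_of_dvd_pow h
        norm_num at this
    · exact (Nat.Prime.coprime_iff_not_dvd Nat.prime_three).1 h3.symm (h.trans (Dc_dvd hn x 1))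
  have h5 : bb e f x % 3 = 1 ∨ bb e f x % 3 = 2 := by omega
  rcases h5 with h5 | h5
  · rw [if_pos h5, J_three_one h5]; norm_num
  · rw [if_neg (by omega), J_three_two h5]; norm_num

/-- the inner sum of one factor -/
noncomputable def AA (n : ℕ) (δ e f z : ZMod 2) : ℝ := ∑ x ∈ Sol n δ e f, ∏ p, kap z (x p) p

include hn h2 hd in
theorem RS1_AA : ((RS1 d).card : ℝ) = ∑ e ∈ EE d, AA n δ e 0 0 := by
  rw [card_RS1 hn h2 hd]
  push_cast
  refine Finset.sum_congr rfl fun e _ => ?_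
  unfold AA
  rw [Finset.sum_congr rfl fun x _ => kap_zero x, Finset.sum_const, nsmul_eq_mul, mul_one]

include hn h2 hd in
theorem RS2_AA (h5 : n.Coprime 5) (h3 : n.Coprime 3) : ((RS2 d).card : ℝ) =
    1 / 2 * ∑ e ∈ EE d, ∑ f : ZMod 2, ∑ z : ZMod 2, sgz z (e + f) * AA n δ e f z := by
  rw [card_RS2 hn h2 hd h5]
  push_cast
  rw [Finset.mul_sum]
  refine Finset.sum_congr rfl fun e _ => ?_
  rw [Finset.mul_sum]
  refine Finset.sum_congr rfl fun f _ => ?_
  rw [Finset.card_filter]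
  push_cast
  rw [Finset.sum_congr rfl fun x _ => ind_bb hn h3 e f x, ← Finset.mul_sum, Finset.sum_comm]
  refine congrArg _ (Finset.sum_congr rfl fun z _ => ?_)
  unfold AA
  rw [Finset.mul_sum]

/-- products of the inner sums -/
theorem prod_AA (hn : Squarefree n) (h2 : n % 2 = 1) (k : ℕ) (e f z : Fin k → ZMod 2)
    (h5 : f = 0 ∨ n.Coprime 5) (h3 : z = 0 ∨ n.Coprime 3) :
    ∏ i, AA n δ (e i) (f i) (z i) = (1 / ((2 ^ k : ℕ) : ℝ)) ^ n.primeFactors.card *
      ∑ D ∈ tup (Ix k) n, psi (es δ e) (cs f z) D * wtP (Pk k) D := by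
  rw [inner_eq hn h2 δ e f z h5 h3]
  have h1 : ∀ i, ∑ c : n.primeFactors → ZMod 2 × ZMod 2,
      W P1 c * ∏ p, phi δ (e i) (f i) (z i) (c p) p =
        2 ^ n.primeFactors.card * AA n δ (e i) (f i) (z i) := fun i =>
    sum_phi h2 δ (e i) (f i) (z i) (h5.imp (fun h => by rw [h]; rfl) id)
  rw [Finset.prod_congr rfl fun i _ => h1 i, Finset.prod_mul_distrib, Finset.prod_const,
    Finset.card_univ, Fintype.card_fin, ← mul_assoc]
  have h4 : (1 / ((2 ^ k : ℕ) : ℝ)) ^ n.primeFactors.card * (2 ^ n.primeFactors.card) ^ k = 1 := by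
    rw [Nat.cast_pow, Nat.cast_ofNat, one_div, inv_pow, ← pow_mul, ← pow_mul,
      mul_comm n.primeFactors.card k]
    exact inv_mul_cancel₀ (by positivity)
  rw [h4, one_mul]

theorem cs_zero {k : ℕ} (u : Ix k) : cs (0 : Fin k → ZMod 2) 0 u = 1 := by
  unfold cs
  simp

include hn h2 hd in
/-- **the power identity**, first class -/
theorem card_powI (k : ℕ) : ((RS1 d).card : ℝ) ^ k =
    ∑ e ∈ Fintype.piFinset (fun _ : Fin k => EE d),
      (1 / ((2 ^ k : ℕ) : ℝ)) ^ n.primeFactors.card *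
        ∑ D ∈ tup (Ix k) n, psi (es δ e) (fun _ => 1) D * wtP (Pk k) D := by
  rw [RS1_AA hn h2 hd, ← Fintype.card_fin k, ← Finset.card_univ, ← Finset.prod_const,
    Finset.prod_univ_sum]
  rw [Finset.card_univ, Fintype.card_fin]
  refine Finset.sum_congr rfl fun e _ => ?_
  have h := prod_AA (δ := δ) hn h2 k e 0 0 (Or.inl rfl) (Or.inl rfl)
  have h6 : cs (0 : Fin k → ZMod 2) 0 = fun _ => 1 := funext cs_zero
  rw [h6] at h
  rw [← h]
  rfl

theorem prod_sgz (k : ℕ) (z y : Fin k → ZMod 2) :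
    ∏ i, sgz (z i) (y i) = if ∑ i, z i * y i = 1 then -1 else 1 := by
  unfold sgz
  exact prod_ite_pm _ _ (Or.inr rfl)

include hn h2 hd in
/-- **the power identity**, second class -/
theorem card_powII (h5 : n.Coprime 5) (h3 : n.Coprime 3) (k : ℕ) : ((RS2 d).card : ℝ) ^ k =
    (1 / 2) ^ k * ∑ e ∈ Fintype.piFinset (fun _ : Fin k => EE d),
      ∑ f : Fin k → ZMod 2, ∑ z : Fin k → ZMod 2,
        (if ∑ i, z i * (e i + f i) = 1 then -1 else 1) *
        ((1 / ((2 ^ k : ℕ) : ℝ)) ^ n.primeFactors.card *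
          ∑ D ∈ tup (Ix k) n, psi (es δ e) (cs f z) D * wtP (Pk k) D) := by
  rw [RS2_AA hn h2 hd h5 h3, mul_pow]
  refine congrArg _ ?_
  have e1 : ∀ (s : Finset (ZMod 2)) (g : ZMod 2 → ℝ), (∑ a ∈ s, g a) ^ k =
      ∑ a ∈ Fintype.piFinset (fun _ : Fin k => s), ∏ i, g (a i) := by
    intro s g
    have := Finset.prod_univ_sum (fun _ : Fin k => s) (fun _ a => g a)
    rw [← this, Finset.prod_const, Finset.card_univ, Fintype.card_fin]
  have e2 : ∀ (g : Fin k → ZMod 2 → ℝ), ∏ i, ∑ a : ZMod 2, g i a =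
      ∑ a : Fin k → ZMod 2, ∏ i, g i (a i) := by
    intro g
    have := Finset.prod_univ_sum (fun _ : Fin k => (univ : Finset (ZMod 2))) g
    rw [Fintype.piFinset_univ] at this
    exact this
  rw [e1]
  refine Finset.sum_congr rfl fun e _ => ?_
  rw [e2]
  refine Finset.sum_congr rfl fun f _ => ?_
  rw [e2]
  refine Finset.sum_congr rfl fun z _ => ?_
  rw [Finset.prod_mul_distrib, prod_sgz, prod_AA hn h2 k e f z (Or.inr h5) (Or.inr h3)]

end

end Vale.Agent.P017.H687
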