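import Vale.Agent.P017.H915.Card

/-!
Twisted form of the expansion over colourings (all six families).
-/

namespace Vale.Agent.P017.H687

open Finset Vale.Agent.P014.FM Vale.Agent.P017.H506 Vale.Agent.P017.H915
open Vale.Agent.P014.H698 (J_prod_left zmod2_cases)

/-- the real character modulo `8` of `ℚ(√2)` -/
noncomputable def chi8 (n : ℕ) : ℝ :=
  if n % 8 = 1 ∨ n % 8 = 7 then 1 else if n % 8 = 3 ∨ n % 8 = 5 then -1 else 0

theorem chi8_one : chi8 1 = 1 := by unfold chi8; simp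

theorem chi8_mul (m n : ℕ) : chi8 (m * n) = chi8 m * chi8 n := by
  unfold chi8
  rw [Nat.mul_mod]
  have hm : m % 8 < 8 := Nat.mod_lt _ (by norm_num)
  have hn : n % 8 < 8 := Nat.mod_lt _ (by norm_num)
  interval_cases m % 8 <;> interval_cases n % 8 <;> norm_num

theorem chi8_prod {κ : Type*} (s : Finset κ) (f : κ → ℕ) :
    chi8 (∏ i ∈ s, f i) = ∏ i ∈ s, chi8 (f i) := by
  classical
  induction s using Finset.induction_on with
  | empty => simp [chi8_one]
  | insert i s hi ih => rw [Finset.prod_insert hi, Finset.prod_insert hi, chi8_mul, ih]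

theorem chi8_pm {n : ℕ} (h : n % 2 = 1) : chi8 n = 1 ∨ chi8 n = -1 := by
  unfold chi8
  have : n % 8 = 1 ∨ n % 8 = 3 ∨ n % 8 = 5 ∨ n % 8 = 7 := by omega
  rcases this with h | h | h | h <;> rw [h] <;> norm_num

section psi

variable {ι : Type*} [Fintype ι]

/-- the twist of a tuple -/
noncomputable def psi (es cs : ι → ℕ) (D : ι → ℕ) : ℝ :=
  ∏ u, chi8 (D u) ^ (es u) * J (D u) (cs u)

variable [DecidableEq ι]

theorem psi_Dc {n : ℕ} (es cs : ι → ℕ) (c : n.primeFactors → ι) :
    psi es cs (Dc c) = ∏ p : n.primeFactors, chi8 p ^ es (c p) * J p (cs (c p)) := by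
  unfold psi
  have h1 : ∀ u : ι, chi8 (Dc c u) ^ es u * J (Dc c u) (cs u) =
      ∏ p ∈ Finset.univ.filter (fun p => c p = u), chi8 p ^ es (c p) * J p (cs (c p)) := by
    intro u
    unfold Dc
    rw [chi8_prod, J_prod_left, ← Finset.prod_pow, ← Finset.prod_mul_distrib]
    refine Finset.prod_congr rfl fun p hp => ?_
    rw [Finset.mem_filter] at hp
    rw [hp.2]
  rw [Finset.prod_congr rfl fun u _ => h1 u]
  exact Finset.prod_fiberwise _ _ _

end psi

/-- sum over the second components -/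
theorem sum_W_tw {n : ℕ} (φ : ZMod 2 × ZMod 2 → ℕ → ℝ) :
    ∑ c : n.primeFactors → ZMod 2 × ZMod 2, W P1 c * ∏ p, φ (c p) p =
      ∑ x : n.primeFactors → ZMod 2, ∏ p, (φ (x p, 0) p + eps x p * φ (x p, 1) p) := by
  rw [← (Equiv.arrowProdEquivProdArrow n.primeFactors (fun _ => ZMod 2)
    (fun _ => ZMod 2)).symm.sum_comp, Fintype.sum_prod_type]
  refine Finset.sum_congr rfl fun x _ => ?_
  have h1 : ∀ t : n.primeFactors → ZMod 2,
      W P1 ((Equiv.arrowProdEquivProdArrow n.primeFactors (fun _ => ZMod 2)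
        (fun _ => ZMod 2)).symm (x, t)) = ∏ p, (if t p = 1 then eps x p else 1) := by
    intro t
    unfold W
    rw [Finset.prod_comm]
    refine Finset.prod_congr rfl fun p _ => ?_
    show ∏ q : n.primeFactors, (if P1 (x q, t q) (x p, t p) = 1 then J q p else 1) = _
    unfold P1 eps
    rcases zmod2_cases (t p) with h | h
    · rw [if_neg (by rw [h]; decide)]
      refine Finset.prod_eq_one fun q _ => ?_
      rw [if_neg]
      simp [h]
    · rw [if_pos h]
      refine Finset.prod_congr rfl fun q _ => ?_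
      simp only [h, one_mul]
  have h3 : ∀ t : n.primeFactors → ZMod 2,
      W P1 ((Equiv.arrowProdEquivProdArrow n.primeFactors (fun _ => ZMod 2)
        (fun _ => ZMod 2)).symm (x, t)) * ∏ p, φ (((Equiv.arrowProdEquivProdArrow n.primeFactors
          (fun _ => ZMod 2) (fun _ => ZMod 2)).symm (x, t)) p) p =
        ∏ p, ((if t p = 1 then eps x p else 1) * φ (x p, t p) p) := by
    intro t
    rw [h1, Finset.prod_mul_distrib]
    rfl
  rw [Finset.sum_congr rfl fun t _ => h3 t]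
  have h2 := Finset.prod_univ_sum (fun _ : n.primeFactors => (Finset.univ : Finset (ZMod 2)))
    (fun p a => (if a = 1 then eps x p else (1 : ℝ)) * φ (x p, a) p)
  rw [Fintype.piFinset_univ] at h2
  rw [← h2]
  refine Finset.prod_congr rfl fun p _ => ?_
  have h4 : ∀ f : ZMod 2 → ℝ, ∑ a : ZMod 2, f a = f 0 + f 1 := fun f => Fin.sum_univ_two f
  rw [h4, if_neg (by decide), if_pos rfl, one_mul]

/-- products of twisted sums -/
theorem sum_W_tw_pow {n : ℕ} (k : ℕ) (φ : Fin k → ZMod 2 × ZMod 2 → ℕ → ℝ) :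
    ∑ C : n.primeFactors → Ix k, W (Pk k) C * ∏ p : n.primeFactors, ∏ i, φ i (C p i) p =
      ∏ i, ∑ c : n.primeFactors → ZMod 2 × ZMod 2, W P1 c * ∏ p, φ i (c p) p := by
  have h2 := Finset.prod_univ_sum
    (fun _ : Fin k => (Finset.univ : Finset (n.primeFactors → ZMod 2 × ZMod 2)))
    (fun i c => W P1 c * ∏ p, φ i (c p) p)
  rw [Fintype.piFinset_univ] at h2
  rw [h2]
  refine Fintype.sum_equiv (Equiv.piComm fun _ _ => ZMod 2 × ZMod 2) _ _ fun C => ?_
  rw [W_pow, Finset.prod_comm (s := (univ : Finset n.primeFactors)), ← Finset.prod_mul_distrib]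
  rfl

/-- the twist of one factor -/
noncomputable def phi (δ e f z : ZMod 2) (w : ZMod 2 × ZMod 2) (p : ℕ) : ℝ :=
  (if w.2 * (e + δ * w.1) = 1 then chi8 p else 1) * (if w.2 * f = 1 then J p 5 else 1) *
    (if z * w.1 = 1 then J p 3 else 1)

/-- the exponent of `χ₈` -/
def es {k : ℕ} (δ : ZMod 2) (e : Fin k → ZMod 2) (u : Ix k) : ℕ :=
  (∑ i, (u i).2 * (e i + δ * (u i).1)).val

/-- the moduli of the other twists -/
def cs {k : ℕ} (f z : Fin k → ZMod 2) (u : Ix k) : ℕ :=
  5 ^ (∑ i, (u i).2 * f i).val * 3 ^ (∑ i, z i * (u i).1).val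

theorem pow_val {y : ℝ} (a : ZMod 2) : y ^ a.val = if a = 1 then y else 1 := by
  rcases zmod2_cases a with h | h
  · rw [h, if_neg (by decide)]
    exact pow_zero y
  · rw [h, if_pos rfl]
    exact pow_one y

theorem J_pm_of {p q : ℕ} (h : Nat.Coprime p q) : J p q = 1 ∨ J p q = -1 := by
  have h1 : Int.gcd (p : ℤ) (q : ℤ) = 1 := by
    rw [Int.gcd_natCast_natCast]; exact h
  unfold Vale.Agent.P014.H580.J
  rcases jacobiSym.eq_one_or_neg_one h1 with h2 | h2
  · left; rw [h2]; norm_num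
  · right; rw [h2]; norm_num

theorem J_pow_val (p q : ℕ) (hq : q ≠ 0) (a : ZMod 2) : J p (q ^ a.val) = J p q ^ a.val := by
  rcases zmod2_cases a with h | h
  · rw [h]
    show J p (q ^ 0) = J p q ^ 0
    rw [pow_zero, pow_zero]
    unfold Vale.Agent.P014.H580.J
    rw [jacobiSym.one_right]
    norm_num
  · rw [h]
    show J p (q ^ 1) = J p q ^ 1
    rw [pow_one, pow_one]

/-- the local factor of the twist for the `k`-th power -/
theorem local_eq {k : ℕ} (δ : ZMod 2) (e f z : Fin k → ZMod 2) (u : Ix k) {p : ℕ}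
    (h2 : p % 2 = 1) (h5 : f = 0 ∨ p.Coprime 5) (h3 : z = 0 ∨ p.Coprime 3) :
    chi8 p ^ es δ e u * J p (cs f z u) = ∏ i, phi δ (e i) (f i) (z i) (u i) p := by
  unfold phi es cs
  rw [Finset.prod_mul_distrib, Finset.prod_mul_distrib,
    Vale.Agent.P014.H580.J_mul_right _ _ _ (by positivity) (by positivity),
    J_pow_val _ _ (by norm_num), J_pow_val _ _ (by norm_num), pow_val, pow_val, pow_val,
    prod_ite_pm _ _ (chi8_pm h2), mul_assoc]
  refine congrArg₂ (· * ·) rfl (congrArg₂ (· * ·) ?_ ?_)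
  · rcases h5 with h5 | h5
    · rw [h5]
      simp
    · exact (prod_ite_pm _ _ (J_pm_of h5)).symm
  · rcases h3 with h3 | h3
    · rw [h3]
      simp
    · exact (prod_ite_pm _ _ (J_pm_of h3)).symm

/-- the inner sum as a product of sums over colourings -/
theorem inner_eq {k : ℕ} {n : ℕ} (hn : Squarefree n) (h2 : n % 2 = 1) (δ : ZMod 2)
    (e f z : Fin k → ZMod 2) (h5 : f = 0 ∨ n.Coprime 5) (h3 : z = 0 ∨ n.Coprime 3) :
    ∑ D ∈ tup (Ix k) n, psi (es δ e) (cs f z) D * wtP (Pk k) D =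
      ∏ i, ∑ c : n.primeFactors → ZMod 2 × ZMod 2,
        W P1 c * ∏ p, phi δ (e i) (f i) (z i) (c p) p := by
  rw [← sum_tup hn (fun D => psi (es δ e) (cs f z) D * wtP (Pk k) D),
    ← sum_W_tw_pow k (fun i => phi δ (e i) (f i) (z i))]
  refine Finset.sum_congr rfl fun c _ => ?_
  rw [wtP_Dc, psi_Dc, mul_comm]
  refine congrArg₂ (· * ·) rfl (Finset.prod_congr rfl fun p _ => ?_)
  have hpd : (p : ℕ) ∣ n := Nat.dvd_of_mem_primeFactors p.2
  refine local_eq δ e f z (c p) ?_ (h5.imp id fun h => h.coprime_dvd_left hpd)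
    (h3.imp id fun h => h.coprime_dvd_left hpd)
  rcases Nat.even_or_odd (p : ℕ) with h | h
  · have : 2 ∣ n := (even_iff_two_dvd.1 h).trans hpd
    omega
  · exact Nat.odd_iff.1 h

end Vale.Agent.P017.H687
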