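import Vale.Agent.P017.H687.Pow0
import Vale.Agent.P017.H994.Card
import Vale.Agent.P017.H994.CardI

/-!
The power identity for all six families.
-/

namespace Vale.Agent.P017.H687

open Finset Vale.Agent.P014.FM Vale.Agent.P017.H506 Vale.Agent.P017.H915
open Vale.Agent.P014.H698 (J_prod_left zmod2_cases)
open Vale.Agent.P014.H580 (J_mul_left)

/-- the twist of the local symbol -/
noncomputable def tau (δ e f x : ZMod 2) (p : ℕ) : ℝ :=
  (if e + δ * x = 1 then chi8 p else 1) * (if f = 1 then J p 5 else 1)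

/-- the weight at `3` -/
noncomputable def kap (z x : ZMod 2) (p : ℕ) : ℝ := if z * x = 1 then J p 3 else 1

theorem phi_zero (δ e f z x : ZMod 2) (p : ℕ) : phi δ e f z (x, 0) p = kap z x p := by
  unfold phi kap
  simp

theorem phi_one (δ e f z x : ZMod 2) (p : ℕ) :
    phi δ e f z (x, 1) p = tau δ e f x p * kap z x p := by
  unfold phi kap tau
  simp

theorem tau_pm {δ e f x : ZMod 2} {p : ℕ} (h2 : p % 2 = 1) (h5 : f = 0 ∨ p.Coprime 5) :
    tau δ e f x p = 1 ∨ tau δ e f x p = -1 := by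
  unfold tau
  rcases chi8_pm h2 with h | h <;> rcases h5 with h5 | h5
  · rw [h, h5, if_neg (show ¬ (0 : ZMod 2) = 1 by decide)]; split_ifs <;> simp
  · rw [h]
    rcases J_pm_of h5 with h6 | h6 <;> rw [h6] <;> split_ifs <;> simp
  · rw [h, h5, if_neg (show ¬ (0 : ZMod 2) = 1 by decide)]; split_ifs <;> simp
  · rw [h]
    rcases J_pm_of h5 with h6 | h6 <;> rw [h6] <;> split_ifs <;> simp

theorem odd_of {n : ℕ} (h2 : n % 2 = 1) (p : n.primeFactors) : (p : ℕ) % 2 = 1 := by
  have hpd : (p : ℕ) ∣ n := Nat.dvd_of_mem_primeFactors p.2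
  rcases Nat.even_or_odd (p : ℕ) with h | h
  · have : 2 ∣ n := (even_iff_two_dvd.1 h).trans hpd
    omega
  · exact Nat.odd_iff.1 h

open Classical in
/-- the solutions of the local conditions -/
noncomputable def Sol (n : ℕ) (δ e f : ZMod 2) : Finset (n.primeFactors → ZMod 2) :=
  univ.filter fun x => ∀ p, eps x p * tau δ e f (x p) p = 1

theorem mem_Sol {n : ℕ} {δ e f : ZMod 2} {x : n.primeFactors → ZMod 2} :
    x ∈ Sol n δ e f ↔ ∀ p, eps x p * tau δ e f (x p) p = 1 := by
  classical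
  unfold Sol
  rw [mem_filter]
  exact ⟨fun h => h.2, fun h => ⟨mem_univ _, h⟩⟩

theorem sum_phi {n : ℕ} (h2 : n % 2 = 1) (δ e f z : ZMod 2) (h5 : f = 0 ∨ n.Coprime 5) :
    ∑ c : n.primeFactors → ZMod 2 × ZMod 2, W P1 c * ∏ p, phi δ e f z (c p) p =
      2 ^ n.primeFactors.card * ∑ x ∈ Sol n δ e f, ∏ p, kap z (x p) p := by
  classical
  rw [sum_W_tw, Sol, Finset.sum_filter, Finset.mul_sum]
  refine Finset.sum_congr rfl fun x _ => ?_
  have h1 : ∏ p : n.primeFactors, (phi δ e f z (x p, 0) p + eps x p * phi δ e f z (x p, 1) p) =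
      (∏ p : n.primeFactors, (1 + eps x p * tau δ e f (x p) p)) * ∏ p, kap z (x p) p := by
    rw [← Finset.prod_mul_distrib]
    refine Finset.prod_congr rfl fun p _ => ?_
    rw [phi_zero, phi_one]
    ring
  rw [h1]
  split_ifs with h
  · rw [Finset.prod_congr rfl fun p _ => by rw [h p], Finset.prod_const, Finset.card_univ,
      Fintype.card_coe]
    norm_num
  · push Not at h
    obtain ⟨p, hp⟩ := h
    rw [Finset.prod_eq_zero (Finset.mem_univ p), zero_mul, mul_zero]
    have hpd : (p : ℕ) ∣ n := Nat.dvd_of_mem_primeFactors p.2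
    have h6 : eps x p * tau δ e f (x p) p = 1 ∨ eps x p * tau δ e f (x p) p = -1 := by
      rcases eps_pm x p with h3 | h3 <;>
        rcases tau_pm (δ := δ) (e := e) (x := x p) (odd_of h2 p)
          (h5.imp id fun h => h.coprime_dvd_left hpd) with h4 | h4 <;>
        rw [h3, h4] <;> norm_num
    rcases h6 with h6 | h6
    · exact absurd h6 hp
    · rw [h6]; norm_num

/-- the number attached to a solution -/
noncomputable def bb {n : ℕ} (e f : ZMod 2) (x : n.primeFactors → ZMod 2) : ℕ :=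
  2 ^ e.val * 5 ^ f.val * Dc x 1

theorem J_two {p : ℕ} (h2 : p % 2 = 1) : J 2 p = chi8 p := by
  unfold Vale.Agent.P014.H580.J chi8
  rw [show (((2 : ℕ) : ℤ)) = 2 by rfl, jacobiSym.at_two (Nat.odd_iff.2 h2),
    ZMod.χ₈_nat_eq_if_mod_eight]
  rw [if_neg (by omega)]
  have : p % 8 = 1 ∨ p % 8 = 3 ∨ p % 8 = 5 ∨ p % 8 = 7 := by omega
  rcases this with h | h | h | h <;> rw [h] <;> norm_num

theorem J_five_comm {p : ℕ} (h2 : p % 2 = 1) : J 5 p = J p 5 := by
  unfold Vale.Agent.P014.H580.J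
  have := jacobiSym.quadratic_reciprocity_one_mod_four (a := 5) (b := p) (by norm_num)
    (Nat.odd_iff.2 h2)
  rw [this]

theorem J_pow_left (a e c : ℕ) : J (a ^ c) e = J a e ^ c := by
  induction c with
  | zero =>
    rw [pow_zero, pow_zero]
    unfold Vale.Agent.P014.H580.J
    rw [Nat.cast_one, jacobiSym.one_left]
    norm_num
  | succ c ih => rw [pow_succ, J_mul_left, ih, pow_succ]

section loc

variable {n : ℕ} (hn : Squarefree n) (h2 : n % 2 = 1)

include hn in
theorem Dc_ne_zero (x : n.primeFactors → ZMod 2) (a : ZMod 2) : Dc x a ≠ 0 := fun h => by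
  have := Dc_dvd hn x a
  rw [h] at this
  exact hn.ne_zero (Nat.eq_zero_of_zero_dvd this)

include h2 in
theorem dvd_bb {e f : ZMod 2} (x : n.primeFactors → ZMod 2) (p : n.primeFactors)
    (h5 : f = 0 ∨ (p : ℕ).Coprime 5) : (p : ℕ) ∣ bb e f x ↔ x p = 1 := by
  have hp := prime_coe p
  have c2 : Nat.Coprime (p : ℕ) (2 ^ e.val) := by
    apply Nat.Coprime.pow_right
    have := odd_of h2 p
    exact (Nat.coprime_primes hp Nat.prime_two).2 (by omega)
  have c5 : Nat.Coprime (p : ℕ) (5 ^ f.val) := by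
    rcases h5 with h5 | h5
    · rw [h5]
      exact Nat.coprime_one_right _
    · exact Nat.Coprime.pow_right _ h5
  unfold bb
  rw [(c2.mul_right c5).dvd_mul_left]
  exact dvd_Dc_iff x 1 p

include hn in
theorem bb_mul (δ e f : ZMod 2) (x : n.primeFactors → ZMod 2) :
    10 * (2 ^ δ.val * n) / bb e f x = 2 ^ (δ.val + 1 - e.val) * 5 ^ (1 - f.val) * Dc x 0 := by
  have hD := Dc_zmod2 hn x
  have h0 := Dc_ne_zero hn x 1
  have hb : bb e f x ≠ 0 := by
    unfold bb
    positivity
  apply Nat.div_eq_of_eq_mul_left (Nat.pos_of_ne_zero hb)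
  unfold bb
  obtain ⟨A, hA⟩ : ∃ A, A = Dc x 0 := ⟨_, rfl⟩
  obtain ⟨B, hB⟩ : ∃ B, B = Dc x 1 := ⟨_, rfl⟩
  rw [← hA, ← hB] at hD ⊢
  rw [← hD]
  rcases zmod2_cases δ with h | h <;> rcases zmod2_cases e with h' | h' <;>
    rcases zmod2_cases f with h'' | h'' <;> rw [h, h', h'']
  all_goals
    try rw [show (0 : ZMod 2).val = 0 by rfl]
    try rw [show (1 : ZMod 2).val = 1 by rfl]
    norm_num
    ring

include hn in
theorem bb_mul2 (δ e : ZMod 2) (x : n.primeFactors → ZMod 2) :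
    2 * (2 ^ δ.val * n) / bb e 0 x = 2 ^ (δ.val + 1 - e.val) * Dc x 0 := by
  have hD := Dc_zmod2 hn x
  have h0 := Dc_ne_zero hn x 1
  have hb : bb e 0 x ≠ 0 := by
    unfold bb
    positivity
  apply Nat.div_eq_of_eq_mul_left (Nat.pos_of_ne_zero hb)
  unfold bb
  obtain ⟨A, hA⟩ : ∃ A, A = Dc x 0 := ⟨_, rfl⟩
  obtain ⟨B, hB⟩ : ∃ B, B = Dc x 1 := ⟨_, rfl⟩
  rw [← hA, ← hB] at hD ⊢
  rw [← hD]
  rcases zmod2_cases δ with h | h <;> rcases zmod2_cases e with h' | h' <;> rw [h, h']
  all_goals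
    try rw [show (0 : ZMod 2).val = 0 by rfl]
    try rw [show (1 : ZMod 2).val = 1 by rfl]
    norm_num
    ring

include hn h2 in
theorem loc_iff (δ e f : ZMod 2) (x : n.primeFactors → ZMod 2) (p : n.primeFactors)
    (h5 : (p : ℕ).Coprime 5) :
    ((¬ (p : ℕ) ∣ bb e f x → IsSquare ((bb e f x : ℕ) : ZMod p)) ∧
      ((p : ℕ) ∣ bb e f x → IsSquare ((10 * (10 * (2 ^ δ.val * n) / bb e f x) : ℕ) : ZMod p))) ↔
      eps x p * tau δ e f (x p) p = 1 := by
  have hp := prime_coe p
  have ho := odd_of h2 p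
  have hA := chi8_pm ho
  have hB := J_pm_of h5
  rw [dvd_bb h2 x p (Or.inr h5), bb_mul hn, eps_eq]
  have hnd2 : ¬ (p : ℕ) ∣ 2 := fun h => by
    have := (Nat.prime_dvd_prime_iff_eq hp Nat.prime_two).1 h
    omega
  have hnd5 : ¬ (p : ℕ) ∣ 5 := fun h => by
    have := (Nat.prime_dvd_prime_iff_eq hp Nat.prime_five).1 h
    rw [this] at h5
    norm_num at h5
  rcases zmod2_cases (x p) with hx | hx
  · rw [hx, zero_add]
    have e1 : J (bb e f x) p = J (Dc x 1) p * tau δ e f 0 p := by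
      unfold bb tau
      rw [J_mul_left, J_mul_left, J_pow_left, J_pow_left, J_two ho, J_five_comm ho, pow_val,
        pow_val, mul_zero, add_zero]
      ring
    rw [← e1, J_eq_one_iff hp (by rw [dvd_bb h2 x p (Or.inr h5), hx]; decide)]
    simp
  · rw [hx, show (1 : ZMod 2) + 1 = 0 by decide]
    have e1 : J (10 * (2 ^ (δ.val + 1 - e.val) * 5 ^ (1 - f.val) * Dc x 0)) p =
        J (Dc x 0) p * tau δ e f 1 p := by
      unfold tau
      rw [show (10 : ℕ) = 2 * 5 by norm_num, J_mul_left, J_mul_left, J_mul_left, J_mul_left,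
        J_pow_left, J_pow_left, J_two ho, J_five_comm ho]
      rcases zmod2_cases δ with h | h <;> rcases zmod2_cases e with h' | h' <;>
        rcases zmod2_cases f with h'' | h'' <;> rw [h, h', h''] <;>
        rcases hA with h3 | h3 <;> rcases hB with h4 | h4 <;> rw [h3, h4]
      all_goals
        try rw [show (0 : ZMod 2).val = 0 by rfl]
        try rw [show (1 : ZMod 2).val = 1 by rfl]
        simp
    rw [← e1, J_eq_one_iff hp]
    · simp
    · intro h
      rw [show (10 : ℕ) = 2 * 5 by norm_num] at h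
      rcases (Nat.Prime.dvd_mul hp).1 h with h | h
      · rcases (Nat.Prime.dvd_mul hp).1 h with h | h
        · exact hnd2 h
        · exact hnd5 h
      rcases (Nat.Prime.dvd_mul hp).1 h with h | h
      · rcases (Nat.Prime.dvd_mul hp).1 h with h | h
        · exact hnd2 (hp.dvd_of_dvd_pow h)
        · exact hnd5 (hp.dvd_of_dvd_pow h)
      · rw [dvd_Dc_iff, hx] at h
        exact absurd h (by decide)

include hn h2 in
theorem loc_iff2 (δ e : ZMod 2) (x : n.primeFactors → ZMod 2) (p : n.primeFactors) :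
    ((¬ (p : ℕ) ∣ bb e 0 x → IsSquare ((bb e 0 x : ℕ) : ZMod p)) ∧
      ((p : ℕ) ∣ bb e 0 x → IsSquare ((2 * (2 * (2 ^ δ.val * n) / bb e 0 x) : ℕ) : ZMod p))) ↔
      eps x p * tau δ e 0 (x p) p = 1 := by
  have hp := prime_coe p
  have ho := odd_of h2 p
  have hA := chi8_pm ho
  rw [dvd_bb h2 x p (Or.inl rfl), bb_mul2 hn, eps_eq]
  have hnd2 : ¬ (p : ℕ) ∣ 2 := fun h => by
    have := (Nat.prime_dvd_prime_iff_eq hp Nat.prime_two).1 h
    omega
  rcases zmod2_cases (x p) with hx | hx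
  · rw [hx, zero_add]
    have e1 : J (bb e 0 x) p = J (Dc x 1) p * tau δ e 0 0 p := by
      unfold bb tau
      rw [J_mul_left, J_mul_left, J_pow_left, J_pow_left, J_two ho, J_five_comm ho, pow_val,
        pow_val, mul_zero, add_zero]
      ring
    rw [← e1, J_eq_one_iff hp (by rw [dvd_bb h2 x p (Or.inl rfl), hx]; decide)]
    simp
  · rw [hx, show (1 : ZMod 2) + 1 = 0 by decide]
    have e1 : J (2 * (2 ^ (δ.val + 1 - e.val) * Dc x 0)) p =
        J (Dc x 0) p * tau δ e 0 1 p := by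
      unfold tau
      rw [J_mul_left, J_mul_left, J_pow_left, J_two ho]
      rcases zmod2_cases δ with h | h <;> rcases zmod2_cases e with h' | h' <;> rw [h, h'] <;>
        rcases hA with h3 | h3 <;> rw [h3]
      all_goals
        try rw [show (0 : ZMod 2).val = 0 by rfl]
        try rw [show (1 : ZMod 2).val = 1 by rfl]
        simp
    rw [← e1, J_eq_one_iff hp]
    · simp
    · intro h
      rcases (Nat.Prime.dvd_mul hp).1 h with h | h
      · exact hnd2 h
      rcases (Nat.Prime.dvd_mul hp).1 h with h | h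
      · exact hnd2 (hp.dvd_of_dvd_pow h)
      · rw [dvd_Dc_iff, hx] at h
        exact absurd h (by decide)

end loc

end Vale.Agent.P017.H687
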