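import Vale.Agent.P017.H687.Pow1

/-!
The power identity for all six families, second part.
-/

namespace Vale.Agent.P017.H687

open Finset Vale.Agent.P014.FM Vale.Agent.P017.H506 Vale.Agent.P017.H915 Vale.Agent.P017.H994
open Vale.Agent.P014.H698 (J_prod_left zmod2_cases)
open Vale.Agent.P014.H580 (J_mul_left)

/-- the allowed exponents of two -/
def EE (d : ℕ) : Finset (ZMod 2) := if d % 4 = 3 then {0} else univ

theorem zero_mem_EE (d : ℕ) : (0 : ZMod 2) ∈ EE d := by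
  unfold EE
  split_ifs <;> simp

/-- the exponent of two in the bound for the divisors -/
def al (d : ℕ) : ℕ := if d % 4 = 3 then 0 else 1

theorem mem_EE {d : ℕ} {e : ZMod 2} : e ∈ EE d ↔ e.val ≤ al d := by
  unfold EE al
  split_ifs with h
  · rw [mem_singleton, Nat.le_zero, ZMod.val_eq_zero]
  · have := ZMod.val_lt e
    exact ⟨fun _ => by omega, fun _ => mem_univ _⟩

theorem d_cases {d n : ℕ} {δ : ZMod 2} (h2 : n % 2 = 1) (hd : d = 2 ^ δ.val * n) :
    (δ = 0 ∧ d = n ∧ (d % 4 = 1 ∨ d % 4 = 3)) ∨ (δ = 1 ∧ d = 2 * n ∧ d % 4 = 2) := by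
  rcases zmod2_cases δ with h | h
  · left
    have e : d = n := by rw [hd, h]; show 2 ^ 0 * n = n; ring
    exact ⟨h, e, by omega⟩
  · right
    have e : d = 2 * n := by rw [hd, h]; show 2 ^ 1 * n = 2 * n; ring
    exact ⟨h, e, by omega⟩

theorem five_eq {d n : ℕ} {δ : ZMod 2} (h2 : n % 2 = 1) (hd : d = 2 ^ δ.val * n) :
    five d = 2 ^ al d * 5 * n := by
  unfold five al
  rcases d_cases h2 hd with ⟨h, e, h4⟩ | ⟨h, e, h4⟩
  · rcases h4 with h4 | h4
    · rw [if_pos h4, if_neg (by omega), e]; ring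
    · rw [if_neg (by omega), if_pos h4, e]; ring
  · rw [if_neg (by omega), if_neg (by omega), e]; ring

theorem ram_eq {d n : ℕ} {δ : ZMod 2} (h2 : n % 2 = 1) (hd : d = 2 ^ δ.val * n) :
    ram d = 2 ^ al d * n := by
  unfold ram al
  rcases d_cases h2 hd with ⟨h, e, h4⟩ | ⟨h, e, h4⟩
  · rcases h4 with h4 | h4
    · rw [if_pos h4, if_neg (by omega), e]; ring
    · rw [if_neg (by omega), if_pos h4, e]; ring
  · rw [if_neg (by omega), if_neg (by omega), e]; ring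

theorem exists_x {n a : ℕ} (hn : Squarefree n) (ha : a ∣ n) :
    ∃ x : n.primeFactors → ZMod 2, Dc x 1 = a := by
  have hn0 := hn.ne_zero
  have hD : (fun u : ZMod 2 => if u = 1 then a else n / a) ∈ tup (ZMod 2) n := by
    unfold tup
    rw [Finset.mem_filter, Fintype.mem_piFinset]
    constructor
    · intro u
      show (if u = 1 then a else n / a) ∈ n.divisors
      rw [Nat.mem_divisors]
      split_ifs
      · exact ⟨ha, hn0⟩
      · exact ⟨Nat.div_dvd_of_dvd ha, hn0⟩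
    · have h3 : ∀ f : ZMod 2 → ℕ, ∏ a : ZMod 2, f a = f 0 * f 1 := fun f => Fin.prod_univ_two f
      rw [h3]
      show (if (0 : ZMod 2) = 1 then a else n / a) * (if (1 : ZMod 2) = 1 then a else n / a) = n
      rw [if_neg (by decide), if_pos rfl]
      exact Nat.div_mul_cancel ha
  obtain ⟨x, hx⟩ := exists_Dc hn hD
  refine ⟨x, ?_⟩
  rw [hx]
  exact if_pos rfl

theorem dvd_five_iff {n b a : ℕ} (hn : Squarefree n) :
    b ∣ 2 ^ a * 5 * n ↔ ∃ e : ℕ, e ≤ a ∧ ∃ f : ZMod 2, ∃ x : n.primeFactors → ZMod 2,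
      b = 2 ^ e * 5 ^ f.val * Dc x 1 := by
  constructor
  · intro h
    obtain ⟨y, z, hy, hz, hyz⟩ := (Nat.dvd_mul).1 h
    obtain ⟨y1, y2, h1, h2, h12⟩ := (Nat.dvd_mul).1 hy
    obtain ⟨e, he, rfl⟩ := (Nat.dvd_prime_pow Nat.prime_two).1 h1
    obtain ⟨x, rfl⟩ := exists_x hn hz
    rcases (Nat.dvd_prime Nat.prime_five).1 h2 with h3 | h3
    · exact ⟨e, he, 0, x, by rw [← hyz, ← h12, h3]; rfl⟩
    · exact ⟨e, he, 1, x, by rw [← hyz, ← h12, h3]; rfl⟩
  · rintro ⟨e, he, f, x, rfl⟩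
    refine mul_dvd_mul (mul_dvd_mul (pow_dvd_pow 2 he) ?_) (Dc_dvd hn x 1)
    rcases zmod2_cases f with h | h
    · rw [h]; exact one_dvd _
    · rw [h]; exact dvd_rfl

theorem dvd_ram_iff {n b a : ℕ} (hn : Squarefree n) :
    b ∣ 2 ^ a * n ↔ ∃ e : ℕ, e ≤ a ∧ ∃ x : n.primeFactors → ZMod 2, b = 2 ^ e * Dc x 1 := by
  constructor
  · intro h
    obtain ⟨y, z, hy, hz, hyz⟩ := (Nat.dvd_mul).1 h
    obtain ⟨e, he, rfl⟩ := (Nat.dvd_prime_pow Nat.prime_two).1 hy
    obtain ⟨x, rfl⟩ := exists_x hn hz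
    exact ⟨e, he, x, hyz.symm⟩
  · rintro ⟨e, he, x, rfl⟩
    exact mul_dvd_mul (pow_dvd_pow 2 he) (Dc_dvd hn x 1)

theorem exists_val {d e : ℕ} (he : e ≤ al d) : ∃ e' : ZMod 2, e'.val = e ∧ e' ∈ EE d := by
  have h1 : al d ≤ 1 := by unfold al; split_ifs <;> omega
  rcases Nat.lt_or_ge e 1 with h | h
  · have : e = 0 := by omega
    subst this
    exact ⟨0, rfl, zero_mem_EE d⟩
  · have : e = 1 := by omega
    subst this
    exact ⟨1, rfl, mem_EE.2 he⟩

section inj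

variable {n : ℕ} (hn : Squarefree n) (h2 : n % 2 = 1)

include hn h2 in
theorem Dc_odd (x : n.primeFactors → ZMod 2) : Dc x 1 % 2 = 1 := by
  have h := Dc_dvd hn x 1
  rcases Nat.even_or_odd (Dc x 1) with h3 | h3
  · have : 2 ∣ n := (even_iff_two_dvd.1 h3).trans h
    omega
  · exact Nat.odd_iff.1 h3

theorem Dc_inj {x x' : n.primeFactors → ZMod 2} (h : Dc x 1 = Dc x' 1) : x = x' := by
  funext p
  have h1 := dvd_Dc_iff x 1 p
  have h2 := dvd_Dc_iff x' 1 p
  rw [h] at h1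
  have h3 : x p = 1 ↔ x' p = 1 := h1.symm.trans h2
  rcases zmod2_cases (x p) with h | h <;> rcases zmod2_cases (x' p) with h' | h'
  · rw [h, h']
  · exact absurd (h3.2 h') (by rw [h]; decide)
  · exact absurd (h3.1 h) (by rw [h']; decide)
  · rw [h, h']

include hn h2 in
theorem bb_inj (h5 : n.Coprime 5) {e f e' f' : ZMod 2} {x x' : n.primeFactors → ZMod 2}
    (h : bb e f x = bb e' f' x') : e = e' ∧ f = f' ∧ x = x' := by
  have o1 := Dc_odd hn h2 x
  have o2 := Dc_odd hn h2 x'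
  have k5 : ∀ y : n.primeFactors → ZMod 2, Dc y 1 % 5 ≠ 0 := fun y hy => by
    have h3 : 5 ∣ n := (Nat.dvd_of_mod_eq_zero hy).trans (Dc_dvd hn y 1)
    exact (Nat.Prime.coprime_iff_not_dvd Nat.prime_five).1 h5.symm h3
  have f1 := k5 x
  have f2 := k5 x'
  unfold bb at h
  rcases zmod2_cases e with he | he <;> rcases zmod2_cases e' with he' | he' <;>
    rcases zmod2_cases f with hf | hf <;> rcases zmod2_cases f' with hf' | hf' <;>
    rw [he, he', hf, hf'] at h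
  all_goals
    try rw [show (0 : ZMod 2).val = 0 by rfl] at h
    try rw [show (1 : ZMod 2).val = 1 by rfl] at h
    norm_num at h
  all_goals
    first
    | exact ⟨by rw [he, he'], by rw [hf, hf'], Dc_inj h⟩
    | (exfalso; omega)

include hn h2 in
theorem bb_inj0 {e e' : ZMod 2} {x x' : n.primeFactors → ZMod 2}
    (h : bb e 0 x = bb e' 0 x') : e = e' ∧ x = x' := by
  have o1 := Dc_odd hn h2 x
  have o2 := Dc_odd hn h2 x'
  unfold bb at h
  rcases zmod2_cases e with he | he <;> rcases zmod2_cases e' with he' | he' <;>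
    rw [he, he'] at h
  all_goals
    try rw [show (0 : ZMod 2).val = 0 by rfl] at h
    try rw [show (1 : ZMod 2).val = 1 by rfl] at h
    norm_num at h
  all_goals
    first
    | exact ⟨by rw [he, he'], Dc_inj h⟩
    | (exfalso; omega)

end inj

section cond

variable {d n : ℕ} {δ : ZMod 2} (hn : Squarefree n) (h2 : n % 2 = 1) (hd : d = 2 ^ δ.val * n)

include h2 hn hd in
theorem prime_dvd {p : ℕ} (hp : p.Prime) : (p ≠ 2 ∧ p ∣ d) ↔ p ∈ n.primeFactors := by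
  rw [Nat.mem_primeFactors]
  constructor
  · rintro ⟨h1, h3⟩
    refine ⟨hp, ?_, hn.ne_zero⟩
    rw [hd] at h3
    rcases (Nat.Prime.dvd_mul hp).1 h3 with h | h
    · exact absurd ((Nat.prime_dvd_prime_iff_eq hp Nat.prime_two).1 (hp.dvd_of_dvd_pow h)) h1
    · exact h
  · rintro ⟨_, h3, _⟩
    refine ⟨?_, ?_⟩
    · rintro rfl
      omega
    · rw [hd]; exact h3.mul_left _

include h2 hn hd in
theorem cond2_iff (h5 : n.Coprime 5) (e f : ZMod 2) (x : n.primeFactors → ZMod 2) :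
    Cond2 d (bb e f x) ↔ bb e f x % 3 = 1 ∧ x ∈ Sol n δ e f := by
  unfold Cond2
  rw [mem_Sol]
  refine and_congr Iff.rfl ?_
  constructor
  · intro h p
    have hp := prime_coe p
    have hpd : (p : ℕ) ∣ n := Nat.dvd_of_mem_primeFactors p.2
    have h3 := (prime_dvd hn h2 hd hp).2 p.2
    have h4 := h p hp h3.1 h3.2
    rw [hd] at h4
    exact (loc_iff hn h2 δ e f x p (h5.coprime_dvd_left hpd)).1 h4
  · intro h p hp hp2 hpd
    have h3 := (prime_dvd hn h2 hd hp).1 ⟨hp2, hpd⟩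
    have hpn : p ∣ n := Nat.dvd_of_mem_primeFactors h3
    rw [hd]
    exact (loc_iff hn h2 δ e f x ⟨p, h3⟩ (h5.coprime_dvd_left hpn)).2 (h ⟨p, h3⟩)

include h2 hn hd in
theorem condI_iff (e : ZMod 2) (x : n.primeFactors → ZMod 2) :
    CondI d (bb e 0 x) ↔ x ∈ Sol n δ e 0 := by
  unfold CondI
  rw [mem_Sol]
  constructor
  · intro h p
    have hp := prime_coe p
    have h3 := (prime_dvd hn h2 hd hp).2 p.2
    have h4 := h p hp h3.1 h3.2
    rw [hd] at h4
    exact (loc_iff2 hn h2 δ e x p).1 h4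
  · intro h p hp hp2 hpd
    have h3 := (prime_dvd hn h2 hd hp).1 ⟨hp2, hpd⟩
    rw [hd]
    exact (loc_iff2 hn h2 δ e x ⟨p, h3⟩).2 (h ⟨p, h3⟩)

include h2 hn hd in
theorem card_RS1 : (RS1 d).card = ∑ e ∈ EE d, (Sol n δ e 0).card := by
  classical
  rw [← Finset.card_sigma]
  symm
  refine Finset.card_bij (fun y _ => bb y.1 0 y.2) ?_ ?_ ?_
  · rintro ⟨e, x⟩ hy
    rw [Finset.mem_sigma] at hy
    unfold RS1
    rw [Finset.mem_filter, Nat.mem_divisors, ram_eq h2 hd]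
    refine ⟨⟨(dvd_ram_iff hn).2 ⟨e.val, mem_EE.1 hy.1, x, ?_⟩, ?_⟩,
      (condI_iff hn h2 hd e x).2 hy.2⟩
    · unfold bb
      show 2 ^ e.val * 1 * Dc x 1 = _
      rw [mul_one]
    · have := hn.ne_zero
      positivity
  · rintro ⟨e, x⟩ _ ⟨e', x'⟩ _ h
    obtain ⟨rfl, rfl⟩ := bb_inj0 hn h2 (show bb e 0 x = bb e' 0 x' from h)
    rfl
  · intro b hb
    unfold RS1 at hb
    rw [Finset.mem_filter, Nat.mem_divisors, ram_eq h2 hd] at hb
    obtain ⟨⟨h1, _⟩, h3⟩ := hb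
    obtain ⟨e, he, x, hx⟩ := (dvd_ram_iff hn).1 h1
    obtain ⟨e', rfl, he'⟩ := exists_val he
    have hbb : bb e' 0 x = b := by
      unfold bb
      rw [hx]
      show 2 ^ e'.val * 1 * Dc x 1 = _
      rw [mul_one]
    refine ⟨⟨e', x⟩, ?_, hbb⟩
    rw [Finset.mem_sigma]
    refine ⟨he', (condI_iff hn h2 hd e' x).1 ?_⟩
    rw [hbb]
    exact h3

include h2 hn hd in
theorem card_RS2 (h5 : n.Coprime 5) :
    (RS2 d).card = ∑ e ∈ EE d, ∑ f : ZMod 2, ((Sol n δ e f).filter fun x => bb e f x % 3 = 1).card := by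
  classical
  have e1 : ∀ e : ZMod 2, ∑ f : ZMod 2, ((Sol n δ e f).filter fun x => bb e f x % 3 = 1).card =
      ((univ : Finset (ZMod 2)).sigma
        fun f => (Sol n δ e f).filter fun x => bb e f x % 3 = 1).card := fun e =>
    (Finset.card_sigma _ _).symm
  rw [Finset.sum_congr rfl fun e _ => e1 e, ← Finset.card_sigma]
  symm
  refine Finset.card_bij (fun y _ => bb y.1 y.2.1 y.2.2) ?_ ?_ ?_
  · rintro ⟨e, f, x⟩ hy
    rw [Finset.mem_sigma, Finset.mem_sigma, Finset.mem_filter] at hy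
    unfold RS2
    rw [Finset.mem_filter, Nat.mem_divisors, five_eq h2 hd]
    refine ⟨⟨(dvd_five_iff hn).2 ⟨e.val, mem_EE.1 hy.1, f, x, rfl⟩, ?_⟩,
      (cond2_iff hn h2 hd h5 e f x).2 ⟨hy.2.2.2, hy.2.2.1⟩⟩
    have := hn.ne_zero
    positivity
  · rintro ⟨e, f, x⟩ _ ⟨e', f', x'⟩ _ h
    obtain ⟨rfl, rfl, rfl⟩ := bb_inj hn h2 h5 (show bb e f x = bb e' f' x' from h)
    rfl
  · intro b hb
    unfold RS2 at hb
    rw [Finset.mem_filter, Nat.mem_divisors, five_eq h2 hd] at hb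
    obtain ⟨⟨h1, _⟩, h3⟩ := hb
    obtain ⟨e, he, f, x, hx⟩ := (dvd_five_iff hn).1 h1
    obtain ⟨e', rfl, he'⟩ := exists_val he
    have hbb : bb e' f x = b := by
      unfold bb
      rw [hx]
    refine ⟨⟨e', f, x⟩, ?_, hbb⟩
    rw [Finset.mem_sigma, Finset.mem_sigma, Finset.mem_filter]
    rw [← hbb] at h3
    have := (cond2_iff hn h2 hd h5 e' f x).1 h3
    exact ⟨he', mem_univ _, this.2, this.1⟩

end cond

end Vale.Agent.P017.H687
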