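import Vale.Agent.P014.H687.SqfCount

/-!
# Squarefree numbers in the residue classes modulo `900`
-/

open Filter Finset
open scoped ArithmeticFunction.Moebius

namespace Vale.Agent.P017.H687.Sqf

open Vale.Agent.P014.H687.Sqf (sum_mu_sq)

/-- classes which contain squarefree numbers -/
def Adm (a : ℕ) : Prop := ¬ 4 ∣ a ∧ ¬ 9 ∣ a ∧ ¬ 25 ∣ a

open Classical in
/-- the number of squarefree `n ≤ X`, `n ≡ a mod 900` -/
noncomputable def S (a X : ℕ) : ℕ := ((Icc 1 X).filter fun n => Squarefree n ∧ n % 900 = a).card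

/-- the number of `m ≤ X`, `m ≡ a mod 900`, `d² ∣ m` -/
def M (d a X : ℕ) : ℕ := ((Icc 1 X).filter fun m => m % 900 = a ∧ d ^ 2 ∣ m).card

lemma S_eq (a X : ℕ) : (S a X : ℤ) = ∑ d ∈ Icc 1 (Nat.sqrt X), (μ d : ℤ) * M d a X := by
  classical
  have h0 : (S a X : ℤ) = ∑ m ∈ Icc 1 X, if Squarefree m ∧ m % 900 = a then (1 : ℤ) else 0 := by
    rw [S, Finset.card_filter]
    push_cast
    rfl
  have h1 : (S a X : ℤ) = ∑ m ∈ Icc 1 X, ∑ d ∈ Icc 1 (Nat.sqrt X),
      (if m % 900 = a ∧ d ^ 2 ∣ m then (μ d : ℤ) else 0) := by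
    rw [h0]
    refine Finset.sum_congr rfl fun m hm => ?_
    rw [Finset.mem_Icc] at hm
    by_cases h8 : m % 900 = a
    · simp only [h8, true_and, and_true]
      exact (sum_mu_sq hm.1 hm.2).symm
    · simp [h8]
  rw [h1, Finset.sum_comm]
  refine Finset.sum_congr rfl fun d _ => ?_
  rw [M, Finset.card_filter]
  push_cast
  rw [Finset.mul_sum]
  refine Finset.sum_congr rfl fun m _ => ?_
  split_ifs <;> simp

/-- counting a residue class -/
lemma count_class (N b : ℕ) (hb : 0 < b) (hb900 : b < 900) :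
    |((((Icc 1 N).filter fun k => k % 900 = b).card : ℕ) : ℝ) - N / 900| ≤ 1 := by
  have h1 : ((Icc 1 N).filter fun k => k % 900 = b).card =
      N / 900 + if b ≤ N % 900 then 1 else 0 := by
    have h2 := Nat.count_modEq_card (N + 1) (r := 900) (by norm_num) b
    rw [Nat.count_eq_card_filter_range, Nat.mod_eq_of_lt hb900] at h2
    have h3 : ((Icc 1 N).filter fun k => k % 900 = b) =
        (range (N + 1)).filter fun k => k ≡ b [MOD 900] := by
      ext k
      simp only [mem_filter, mem_Icc, mem_range, Nat.ModEq, Nat.mod_eq_of_lt hb900]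
      constructor
      · rintro ⟨⟨h4, h5⟩, h6⟩; exact ⟨by omega, h6⟩
      · rintro ⟨h4, h6⟩
        refine ⟨⟨?_, by omega⟩, h6⟩
        rcases Nat.eq_zero_or_pos k with h | h
        · rw [h] at h6; simp at h6; omega
        · exact h
    rw [h3, h2]
    split_ifs <;> omega
  rw [h1]
  have h4 : (N : ℝ) = 900 * ((N / 900 : ℕ) : ℝ) + ((N % 900 : ℕ) : ℝ) := by
    exact_mod_cast (Nat.div_add_mod N 900).symm
  have h5 : ((N % 900 : ℕ) : ℝ) < 900 := by
    exact_mod_cast Nat.mod_lt N (by norm_num)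
  have h6 : (0 : ℝ) ≤ ((N % 900 : ℕ) : ℝ) := by positivity
  rw [abs_le]
  split_ifs
  · push_cast
    constructor <;> linarith
  · push_cast
    constructor <;> linarith

lemma M_zero {d a X : ℕ} (ha : Adm a) (hd : ¬ d.Coprime 900) : M d a X = 0 := by
  rw [M, Finset.card_eq_zero, Finset.filter_eq_empty_iff]
  rintro m - ⟨h1, h2⟩
  apply hd
  obtain ⟨a4, a9, a25⟩ := ha
  have key : ∀ p : ℕ, p.Prime → ¬ p ^ 2 ∣ m → Nat.Coprime d p := by
    intro p hp hpm
    rw [Nat.coprime_comm, hp.coprime_iff_not_dvd]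
    exact fun h => hpm ((pow_dvd_pow_of_dvd h 2).trans h2)
  have c2 := key 2 Nat.prime_two (by intro h; apply a4; omega)
  have c3 := key 3 Nat.prime_three (by intro h; apply a9; omega)
  have c5 := key 5 Nat.prime_five (by intro h; apply a25; omega)
  have : (900 : ℕ) = 2 ^ 2 * (3 ^ 2 * 5 ^ 2) := by norm_num
  rw [this]
  exact Nat.Coprime.mul_right (c2.pow_right 2) (Nat.Coprime.mul_right (c3.pow_right 2)
    (c5.pow_right 2))

lemma M_asym {d a X : ℕ} (hd1 : 1 ≤ d) (ha : Adm a) (ha900 : a < 900)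
    (hd : d.Coprime 900) : |(M d a X : ℝ) - X / (900 * (d : ℝ) ^ 2)| ≤ 2 := by
  have hd2 : 0 < d ^ 2 := by positivity
  have hcop : (d ^ 2).Coprime 900 := Nat.Coprime.pow_left 2 hd
  -- the inverse class
  obtain ⟨e, he⟩ := Nat.exists_mul_mod_eq_one_of_coprime hcop (by norm_num)
  set b := a * e % 900 with hb
  have hb900 : b < 900 := Nat.mod_lt _ (by norm_num)
  have hclass : ∀ k : ℕ, (d ^ 2 * k) % 900 = a ↔ k % 900 = b := by
    intro k
    have h1 : (d ^ 2 * k) % 900 = a ↔ d ^ 2 * k ≡ a [MOD 900] := by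
      rw [Nat.ModEq, Nat.mod_eq_of_lt ha900]
    have h2 : k % 900 = b ↔ k ≡ a * e [MOD 900] := by rw [Nat.ModEq]
    rw [h1, h2]
    have he' : d ^ 2 * e ≡ 1 [MOD 900] := he.2
    constructor
    · intro h
      have h3 : e * (d ^ 2 * k) ≡ e * a [MOD 900] := Nat.ModEq.mul_left e h
      have h4 : e * (d ^ 2 * k) ≡ 1 * k [MOD 900] := by
        have : e * (d ^ 2 * k) = d ^ 2 * e * k := by ring
        rw [this]
        exact Nat.ModEq.mul_right k he'
      rw [one_mul] at h4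
      rw [mul_comm a e]
      exact h4.symm.trans h3
    · intro h
      have h3 : d ^ 2 * k ≡ d ^ 2 * (a * e) [MOD 900] := Nat.ModEq.mul_left _ h
      have h4 : d ^ 2 * (a * e) ≡ 1 * a [MOD 900] := by
        have : d ^ 2 * (a * e) = d ^ 2 * e * a := by ring
        rw [this]
        exact Nat.ModEq.mul_right a he'
      rw [one_mul] at h4
      exact h3.trans h4
  have hb0 : 0 < b := by
    rcases Nat.eq_zero_or_pos b with h | h
    · exfalso
      have h1 := (hclass 0).2 (by rw [h])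
      rw [mul_zero, Nat.zero_mod] at h1
      rw [← h1] at ha
      exact ha.1 (dvd_zero 4)
    · exact h
  have h1 : M d a X = ((Icc 1 (X / d ^ 2)).filter fun k => k % 900 = b).card := by
    rw [M]
    symm
    refine Finset.card_bij (fun k _ => d ^ 2 * k) ?_ ?_ ?_
    · intro k hk
      rw [Finset.mem_filter, Finset.mem_Icc] at hk
      rw [Finset.mem_filter, Finset.mem_Icc]
      refine ⟨⟨Nat.mul_pos hd2 hk.1.1, ?_⟩, (hclass k).2 hk.2, Dvd.intro _ rfl⟩
      rw [mul_comm]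
      exact (Nat.le_div_iff_mul_le hd2).1 hk.1.2
    · intro k _ k' _ h
      exact Nat.eq_of_mul_eq_mul_left hd2 h
    · intro m hm
      rw [Finset.mem_filter, Finset.mem_Icc] at hm
      obtain ⟨⟨hm1, hmY⟩, hma, k, rfl⟩ := hm
      refine ⟨k, ?_, rfl⟩
      rw [Finset.mem_filter, Finset.mem_Icc]
      refine ⟨⟨?_, ?_⟩, (hclass k).1 hma⟩
      · rcases Nat.eq_zero_or_pos k with h | h
        · rw [h, mul_zero] at hm1; omega
        · exact h
      · exact (Nat.le_div_iff_mul_le hd2).2 (by rw [mul_comm]; exact hmY)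
  rw [h1]
  have h2 := count_class (X / d ^ 2) b hb0 hb900
  have hd2' : (0 : ℝ) < (d : ℝ) ^ 2 := by positivity
  have h3 : ((X / d ^ 2 : ℕ) : ℝ) ≤ X / (d : ℝ) ^ 2 := by
    have := @Nat.cast_div_le ℝ _ _ _ X (d ^ 2)
    push_cast at this
    exact this
  have h4 : (X : ℝ) / (d : ℝ) ^ 2 - 1 ≤ ((X / d ^ 2 : ℕ) : ℝ) := by
    have h5 : X < (X / d ^ 2 + 1) * d ^ 2 := by
      rw [mul_comm]
      exact Nat.lt_mul_div_succ X hd2
    have h6 : (X : ℝ) < (((X / d ^ 2 : ℕ) : ℝ) + 1) * (d : ℝ) ^ 2 := by exact_mod_cast h5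
    rw [sub_le_iff_le_add, div_le_iff₀ hd2']
    exact h6.le
  have h5 : (X : ℝ) / (900 * (d : ℝ) ^ 2) = X / (d : ℝ) ^ 2 / 900 := by
    rw [div_div, mul_comm]
  rw [h5]
  rw [abs_le] at h2 ⊢
  constructor
  · linarith [h2.1]
  · linarith [h2.2]

/-- the terms of the series -/
noncomputable def cf (d : ℕ) : ℝ := if d.Coprime 900 then (μ d : ℝ) / (d : ℝ) ^ 2 else 0

lemma cf_abs (d : ℕ) : |cf d| ≤ ((d : ℝ) ^ 2)⁻¹ := by
  unfold cf
  split_ifs
  · rw [abs_div, abs_of_nonneg (by positivity : (0 : ℝ) ≤ (d : ℝ) ^ 2), div_eq_mul_inv]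
    have h1 : |(μ d : ℝ)| ≤ 1 := by
      have := ArithmeticFunction.abs_moebius_le_one (n := d)
      exact_mod_cast this
    exact mul_le_of_le_one_left (by positivity) h1
  · rw [abs_zero]; positivity

/-- the density constant -/
noncomputable def C : ℝ := ∑' d, cf d

lemma cf_summable : Summable cf := by
  refine Summable.of_norm_bounded (g := fun d : ℕ => ((d : ℝ) ^ 2)⁻¹) ?_ ?_
  · simp
  · intro d
    rw [Real.norm_eq_abs]
    exact cf_abs d

lemma C_tail (s : ℕ) : |C - ∑ d ∈ Icc 1 s, cf d| ≤ 2 / ((s : ℝ) + 1) := by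
  have h0 : cf 0 = 0 := by
    unfold cf
    simp
  have h1 : ∀ t : ℕ, s < t → |∑ d ∈ range t, cf d - ∑ d ∈ Icc 1 s, cf d| ≤ 2 / ((s : ℝ) + 1) := by
    intro t ht
    have e : range t = insert 0 (Icc 1 s ∪ Ioo s t) := by
      ext i
      simp only [mem_range, mem_insert, mem_union, mem_Icc, mem_Ioo]
      omega
    have hd : Disjoint (Icc 1 s) (Ioo s t) := by
      rw [Finset.disjoint_left]
      intro i hi hi'
      rw [mem_Icc] at hi
      rw [mem_Ioo] at hi'
      omega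
    have hn : 0 ∉ Icc 1 s ∪ Ioo s t := by
      simp
    rw [e, Finset.sum_insert hn, h0, zero_add, Finset.sum_union hd, add_sub_cancel_left]
    refine (Finset.abs_sum_le_sum_abs _ _).trans ?_
    refine (Finset.sum_le_sum fun d _ => cf_abs d).trans ?_
    exact sum_Ioo_inv_sq_le s t
  have h2 : Tendsto (fun t : ℕ => |∑ d ∈ range t, cf d - ∑ d ∈ Icc 1 s, cf d|) atTop
      (nhds |C - ∑ d ∈ Icc 1 s, cf d|) :=
    (((cf_summable.hasSum.tendsto_sum_nat).sub_const _).abs)
  refine le_of_tendsto h2 ?_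
  filter_upwards [eventually_gt_atTop s] with t ht
  exact h1 t ht

/-- **the count of squarefree numbers in a reduced class modulo `900`** -/
theorem S_asym {a : ℕ} (ha : Adm a) (ha900 : a < 900) (X : ℕ) :
    |(S a X : ℝ) - C / 900 * X| ≤ 4 * (Nat.sqrt X : ℝ) + 1 := by
  set s := Nat.sqrt X with hs
  have h1 : (S a X : ℝ) = ∑ d ∈ Icc 1 s, (μ d : ℝ) * M d a X := by
    have := S_eq a X
    exact_mod_cast this
  have h2 : |∑ d ∈ Icc 1 s, (μ d : ℝ) * M d a X - X / 900 * ∑ d ∈ Icc 1 s, cf d| ≤ 2 * s := by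
    rw [Finset.mul_sum, ← Finset.sum_sub_distrib]
    refine (Finset.abs_sum_le_sum_abs _ _).trans ?_
    calc ∑ d ∈ Icc 1 s, |(μ d : ℝ) * M d a X - X / 900 * cf d| ≤ ∑ d ∈ Icc 1 s, (2 : ℝ) := by
          refine Finset.sum_le_sum fun d hd => ?_
          rw [mem_Icc] at hd
          unfold cf
          split_ifs with hc
          · have h3 := M_asym (X := X) hd.1 ha ha900 hc
            have e : (μ d : ℝ) * M d a X - X / 900 * ((μ d : ℝ) / (d : ℝ) ^ 2) =
                (μ d : ℝ) * ((M d a X : ℝ) - X / (900 * (d : ℝ) ^ 2)) := by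
              field_simp
            rw [e, abs_mul]
            have h4 : |(μ d : ℝ)| ≤ 1 := by
              have := ArithmeticFunction.abs_moebius_le_one (n := d)
              exact_mod_cast this
            calc |(μ d : ℝ)| * |(M d a X : ℝ) - X / (900 * (d : ℝ) ^ 2)| ≤ 1 * 2 :=
                  mul_le_mul h4 h3 (abs_nonneg _) zero_le_one
              _ = 2 := one_mul _
          · rw [M_zero ha hc]
            simp
      _ = 2 * s := by simp [mul_comm]
  have h3 := C_tail s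
  have hs1 : (X : ℝ) ≤ ((s : ℝ) + 1) ^ 2 := by
    have : X < (s + 1) * (s + 1) := Nat.lt_succ_sqrt X
    have h4 : (X : ℝ) < ((s : ℝ) + 1) * ((s : ℝ) + 1) := by exact_mod_cast this
    rw [sq]; exact h4.le
  have h5 : |X / 900 * ∑ d ∈ Icc 1 s, cf d - C / 900 * X| ≤ s + 1 := by
    have e : (X : ℝ) / 900 * ∑ d ∈ Icc 1 s, cf d - C / 900 * X =
        -(X / 900 * (C - ∑ d ∈ Icc 1 s, cf d)) := by ring
    rw [e, abs_neg, abs_mul, abs_of_nonneg (by positivity : (0 : ℝ) ≤ X / 900)]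
    have hs0 : (0 : ℝ) < (s : ℝ) + 1 := by positivity
    calc (X : ℝ) / 900 * |C - ∑ d ∈ Icc 1 s, cf d| ≤ ((s : ℝ) + 1) ^ 2 / 900 * (2 / ((s : ℝ) + 1)) := by
          gcongr
      _ = ((s : ℝ) + 1) * (2 / 900) := by
          field_simp
      _ ≤ s + 1 := by nlinarith
  rw [h1]
  have h6 : ∑ d ∈ Icc 1 s, (μ d : ℝ) * M d a X - C / 900 * X =
      (∑ d ∈ Icc 1 s, (μ d : ℝ) * M d a X - X / 900 * ∑ d ∈ Icc 1 s, cf d) +
      (X / 900 * ∑ d ∈ Icc 1 s, cf d - C / 900 * X) := by ring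
  rw [h6]
  refine (abs_add_le _ _).trans ?_
  have : (0 : ℝ) ≤ s := by positivity
  linarith

end Vale.Agent.P017.H687.Sqf
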