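import Vale.Agent.P017.H687.Pow
import Vale.Agent.P017.H506.S5

/-!
The number of solutions is a power of two, at least two.
-/

namespace Vale.Agent.P017.H687

open Finset Vale.Agent.P014.FM Vale.Agent.P017.H506 Vale.Agent.P017.H915 Vale.Agent.P017.H994
open Vale.Agent.P014.H698 (J_prod_left zmod2_cases)
open Vale.Agent.P014.H580 (J_mul_left)

namespace Two

/-- the sign of an element of `ZMod 2` -/
noncomputable def s (a : ZMod 2) : ℝ := if a = 1 then -1 else 1

theorem s_zero : s 0 = 1 := if_neg (by decide)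

theorem s_one : s 1 = -1 := if_pos rfl

theorem s_add (a b : ZMod 2) : s (a + b) = s a * s b := by
  rcases zmod2_cases a with h | h <;> rcases zmod2_cases b with h' | h' <;> rw [h, h']
  · rw [add_zero, s_zero, one_mul]
  · rw [zero_add, s_zero, one_mul]
  · rw [add_zero, s_zero, mul_one]
  · rw [show (1 : ZMod 2) + 1 = 0 by decide, s_zero, s_one]; norm_num

theorem s_eq_one {a : ZMod 2} : s a = 1 ↔ a = 0 := by
  rcases zmod2_cases a with h | h
  · rw [h, s_zero]; simp
  · rw [h, s_one]
    constructor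
    · intro h2; norm_num at h2
    · intro h2; exact absurd h2 (by decide)

theorem s_sum {κ : Type*} (t : Finset κ) (f : κ → ZMod 2) : s (∑ i ∈ t, f i) = ∏ i ∈ t, s (f i) := by
  classical
  induction t using Finset.induction_on with
  | empty => simp [s_zero]
  | insert i t hi ih => rw [Finset.sum_insert hi, Finset.prod_insert hi, s_add, ih]

/-- the exponent of a sign -/
noncomputable def ox (y : ℝ) : ZMod 2 := if y = -1 then 1 else 0

theorem s_ox {y : ℝ} (h : y = 1 ∨ y = -1) (a : ZMod 2) : s (a * ox y) = if a = 1 then y else 1 := by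
  unfold ox
  rcases h with h | h
  · rw [h, if_neg (by norm_num), mul_zero, s_zero]
    simp
  · rw [h, if_pos rfl, mul_one]
    rfl

variable {d n : ℕ} {δ : ZMod 2}

theorem eps_s (x : n.primeFactors → ZMod 2) (p : n.primeFactors) : eps x p = s (S5.TT n x p) := by
  have h := S5.eps_iff x p
  rcases zmod2_cases (S5.TT n x p) with h1 | h1
  · rw [h1, s_zero]; exact h.2 h1
  · rw [h1, s_one]
    rcases eps_pm x p with h2 | h2
    · exact absurd (h.1 h2) (by rw [h1]; decide)
    · exact h2

/-- the linear map of the local conditions -/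
noncomputable def L (n : ℕ) (δ : ZMod 2) (u : ZMod 2 × ZMod 2 × (n.primeFactors → ZMod 2))
    (p : n.primeFactors) : ZMod 2 :=
  S5.TT n u.2.2 p + (u.1 + δ * u.2.2 p) * ox (chi8 p) + u.2.1 * ox (J p 5)

theorem L_iff (h2 : n % 2 = 1) (e f : ZMod 2) (h5 : f = 0 ∨ n.Coprime 5)
    (x : n.primeFactors → ZMod 2) (p : n.primeFactors) :
    eps x p * tau δ e f (x p) p = 1 ↔ L n δ (e, f, x) p = 0 := by
  have hpd : (p : ℕ) ∣ n := Nat.dvd_of_mem_primeFactors p.2
  rw [← s_eq_one]
  unfold L tau
  rw [s_add, s_add, ← eps_s, s_ox (chi8_pm (odd_of h2 p)), mul_assoc]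
  rcases h5 with h5 | h5
  · rw [h5]
    simp [s_zero]
  · rw [s_ox (J_pm_of (h5.coprime_dvd_left hpd))]

/-- the condition at `3` -/
noncomputable def L3 (n : ℕ) (u : ZMod 2 × ZMod 2 × (n.primeFactors → ZMod 2)) : ZMod 2 :=
  (u.1 + u.2.1) + ∑ p : n.primeFactors, u.2.2 p * ox (J p 3)

theorem L3_iff (hn : Squarefree n) (h3 : n.Coprime 3) (e f : ZMod 2)
    (x : n.primeFactors → ZMod 2) : bb e f x % 3 = 1 ↔ L3 n (e, f, x) = 0 := by
  have h1 : J (bb e f x) 3 = s (L3 n (e, f, x)) := by
    rw [J_bb]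
    unfold L3
    rw [s_add, s_sum]
    refine congrArg₂ (· * ·) ?_ (Finset.prod_congr rfl fun p _ => ?_)
    · unfold sgz s
      rw [one_mul]
    · have hpd : (p : ℕ) ∣ n := Nat.dvd_of_mem_primeFactors p.2
      rw [s_ox (J_pm_of (h3.coprime_dvd_left hpd))]
      unfold kap
      rw [one_mul]
  have hnd : ¬ 3 ∣ bb e f x := fun h => by
    unfold bb at h
    rcases (Nat.Prime.dvd_mul Nat.prime_three).1 h with h | h
    · rcases (Nat.Prime.dvd_mul Nat.prime_three).1 h with h | h
      · have := Nat.prime_three.dvd_of_dvd_pow h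
        norm_num at this
      · have := Nat.prime_three.dvd_of_dvd_pow h
        norm_num at this
    · exact (Nat.Prime.coprime_iff_not_dvd Nat.prime_three).1 h3.symm (h.trans (Dc_dvd hn x 1))
  rw [← s_eq_one, ← h1]
  have h5 : bb e f x % 3 = 1 ∨ bb e f x % 3 = 2 := by omega
  rcases h5 with h5 | h5
  · rw [J_three_one h5]; simp [h5]
  · rw [J_three_two h5, h5]; norm_num

/-- the conditions as a homomorphism, second class -/
noncomputable def Ph2 (d n : ℕ) (δ : ZMod 2) :
    (ZMod 2 × ZMod 2 × (n.primeFactors → ZMod 2)) →+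
      (n.primeFactors → ZMod 2) × ZMod 2 × ZMod 2 where
  toFun u := (L n δ u, L3 n u, if d % 4 = 3 then u.1 else 0)
  map_zero' := by
    refine Prod.ext (funext fun p => ?_) (Prod.ext ?_ ?_)
    · simp [L]
    · simp [L3]
    · simp
  map_add' u v := by
    refine Prod.ext (funext fun p => ?_) (Prod.ext ?_ ?_)
    · show L n δ (u + v) p = L n δ u p + L n δ v p
      unfold L
      rw [Prod.snd_add, Prod.snd_add, Prod.fst_add, Prod.fst_add, map_add, Pi.add_apply,
        Pi.add_apply]
      ring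
    · show L3 n (u + v) = L3 n u + L3 n v
      unfold L3
      rw [Prod.snd_add, Prod.snd_add, Prod.fst_add, Prod.fst_add]
      simp only [Pi.add_apply, add_mul, Finset.sum_add_distrib]
      ring
    · show (if d % 4 = 3 then (u + v).1 else 0) = (if d % 4 = 3 then u.1 else 0) +
        (if d % 4 = 3 then v.1 else 0)
      split_ifs
      · rfl
      · simp

/-- the conditions as a homomorphism, first class -/
noncomputable def Ph1 (d n : ℕ) (δ : ZMod 2) :
    (ZMod 2 × (n.primeFactors → ZMod 2)) →+ (n.primeFactors → ZMod 2) × ZMod 2 where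
  toFun u := (L n δ (u.1, 0, u.2), if d % 4 = 3 then u.1 else 0)
  map_zero' := by
    refine Prod.ext (funext fun p => ?_) ?_
    · simp [L]
    · simp
  map_add' u v := by
    refine Prod.ext (funext fun p => ?_) ?_
    · show L n δ ((u + v).1, 0, (u + v).2) p = L n δ (u.1, 0, u.2) p + L n δ (v.1, 0, v.2) p
      unfold L
      rw [Prod.snd_add, Prod.fst_add, map_add, Pi.add_apply, Pi.add_apply]
      ring
    · show (if d % 4 = 3 then (u + v).1 else 0) = (if d % 4 = 3 then u.1 else 0) +
        (if d % 4 = 3 then v.1 else 0)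
      split_ifs
      · rfl
      · simp

theorem mem_EE_iff (e : ZMod 2) : e ∈ EE d ↔ (if d % 4 = 3 then e else 0) = 0 := by
  unfold EE
  split_ifs
  · rw [mem_singleton]
  · simp

open Classical in
theorem card_ker2 (hn : Squarefree n) (h2 : n % 2 = 1) (hd : d = 2 ^ δ.val * n)
    (h5 : n.Coprime 5) (h3 : n.Coprime 3) : (RS2 d).card = Nat.card (Ph2 d n δ).ker := by
  have e0 : Nat.card (Ph2 d n δ).ker =
      (univ.filter fun u : ZMod 2 × ZMod 2 × (n.primeFactors → ZMod 2) => Ph2 d n δ u = 0).card := by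
    refine Nat.subtype_card _ fun u => ?_
    rw [Finset.mem_filter, AddMonoidHom.mem_ker]
    simp
  rw [e0, card_RS2 hn h2 hd h5, Finset.card_filter, Fintype.sum_prod_type,
    ← Finset.sum_subset (Finset.subset_univ (EE d))]
  · refine Finset.sum_congr rfl fun e he => ?_
    rw [Fintype.sum_prod_type]
    refine Finset.sum_congr rfl fun f _ => ?_
    rw [Sol, Finset.filter_filter, Finset.card_filter]
    refine Finset.sum_congr rfl fun x _ => ?_
    refine if_congr ?_ rfl rfl
    show _ ↔ (L n δ (e, f, x), L3 n (e, f, x), if d % 4 = 3 then e else 0) = 0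
    rw [Prod.mk_eq_zero, Prod.mk_eq_zero, ← mem_EE_iff, ← L3_iff hn h3, funext_iff]
    constructor
    · rintro ⟨h6, h7⟩
      exact ⟨fun p => (L_iff h2 e f (Or.inr h5) x p).1 (h6 p), h7, he⟩
    · rintro ⟨h6, h7, _⟩
      exact ⟨fun p => (L_iff h2 e f (Or.inr h5) x p).2 (h6 p), h7⟩
  · intro e _ he
    refine Finset.sum_eq_zero fun v _ => if_neg fun h => he ?_
    rw [mem_EE_iff]
    exact congrArg (fun w => w.2.2) h

open Classical in
theorem card_ker1 (hn : Squarefree n) (h2 : n % 2 = 1) (hd : d = 2 ^ δ.val * n) :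
    (RS1 d).card = Nat.card (Ph1 d n δ).ker := by
  have e0 : Nat.card (Ph1 d n δ).ker =
      (univ.filter fun u : ZMod 2 × (n.primeFactors → ZMod 2) => Ph1 d n δ u = 0).card := by
    refine Nat.subtype_card _ fun u => ?_
    rw [Finset.mem_filter, AddMonoidHom.mem_ker]
    simp
  rw [e0, card_RS1 hn h2 hd, Finset.card_filter, Fintype.sum_prod_type,
    ← Finset.sum_subset (Finset.subset_univ (EE d))]
  · refine Finset.sum_congr rfl fun e he => ?_
    rw [Sol, Finset.card_filter]
    refine Finset.sum_congr rfl fun x _ => ?_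
    refine if_congr ?_ rfl rfl
    show _ ↔ (L n δ (e, 0, x), if d % 4 = 3 then e else 0) = 0
    rw [Prod.mk_eq_zero, ← mem_EE_iff, funext_iff]
    constructor
    · intro h6
      exact ⟨fun p => (L_iff h2 e 0 (Or.inl rfl) x p).1 (h6 p), he⟩
    · rintro ⟨h6, _⟩
      exact fun p => (L_iff h2 e 0 (Or.inl rfl) x p).2 (h6 p)
  · intro e _ he
    refine Finset.sum_eq_zero fun v _ => if_neg fun h => he ?_
    rw [mem_EE_iff]
    exact congrArg (fun w => w.2) h

theorem ge_one {j : ℕ} (h : 2 ≤ 2 ^ j) : 1 ≤ j := by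
  by_contra h1
  have : j = 0 := by omega
  rw [this] at h
  norm_num at h

end Two

variable {d n : ℕ} {δ : ZMod 2}

/-- second class: the number of solutions is a power of two -/
theorem RS2_pow (hn : Squarefree n) (h2 : n % 2 = 1) (hd : d = 2 ^ δ.val * n)
    (h5 : n.Coprime 5) (h3 : n.Coprime 3) (hd1 : d ≠ 1) (hd3 : d % 3 = 1) :
    ∃ j : ℕ, 1 ≤ j ∧ (RS2 d).card = 2 ^ j := by
  classical
  have h1 := Two.card_ker2 hn h2 hd h5 h3
  have h6 : Nat.card (Two.Ph2 d n δ).ker ∣ 2 ^ (2 + n.primeFactors.card) := by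
    have h3 := AddSubgroup.card_addSubgroup_dvd_card (Two.Ph2 d n δ).ker
    rw [Nat.card_eq_fintype_card (α := ZMod 2 × ZMod 2 × (n.primeFactors → ZMod 2)),
      Fintype.card_prod, Fintype.card_prod, Fintype.card_fun, ZMod.card, Fintype.card_coe] at h3
    rw [show 2 ^ (2 + n.primeFactors.card) = 2 * (2 * 2 ^ n.primeFactors.card) by
      rw [pow_add]; ring]
    exact h3
  obtain ⟨j, -, hj⟩ := (Nat.dvd_prime_pow Nat.prime_two).1 h6
  refine ⟨j, ?_, by rw [h1, hj]⟩
  apply Two.ge_one
  rw [← hj, ← h1]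
  have hd0 : d ≠ 0 := by
    rw [hd]
    have := hn.ne_zero
    positivity
  rw [← Finset.card_pair (Ne.symm hd1)]
  refine Finset.card_le_card fun x hx => ?_
  rcases Finset.mem_insert.1 hx with rfl | hx
  · exact one_mem hd0
  · rw [Finset.mem_singleton.1 hx]; exact self_mem hd0 hd3

/-- first class: the number of solutions is a power of two -/
theorem RS1_pow (hn : Squarefree n) (h2 : n % 2 = 1) (hd : d = 2 ^ δ.val * n) (hd1 : d ≠ 1) :
    ∃ j : ℕ, 1 ≤ j ∧ (RS1 d).card = 2 ^ j := by
  classical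
  have h1 := Two.card_ker1 hn h2 hd
  have h6 : Nat.card (Two.Ph1 d n δ).ker ∣ 2 ^ (1 + n.primeFactors.card) := by
    have h3 := AddSubgroup.card_addSubgroup_dvd_card (Two.Ph1 d n δ).ker
    rw [Nat.card_eq_fintype_card (α := ZMod 2 × (n.primeFactors → ZMod 2)),
      Fintype.card_prod, Fintype.card_fun, ZMod.card, Fintype.card_coe] at h3
    rw [show 2 ^ (1 + n.primeFactors.card) = 2 * 2 ^ n.primeFactors.card by
      rw [pow_add]; ring]
    exact h3
  obtain ⟨j, -, hj⟩ := (Nat.dvd_prime_pow Nat.prime_two).1 h6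
  refine ⟨j, ?_, by rw [h1, hj]⟩
  apply Two.ge_one
  rw [← hj, ← h1]
  have hd0 : d ≠ 0 := by
    rw [hd]
    have := hn.ne_zero
    positivity
  rw [← Finset.card_pair (Ne.symm hd1)]
  refine Finset.card_le_card fun x hx => ?_
  rcases Finset.mem_insert.1 hx with rfl | hx
  · exact one_memI hd0
  · rw [Finset.mem_singleton.1 hx]; exact self_memI hd0

end Vale.Agent.P017.H687
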